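import Mathlib

/-!
P338, reversals: the division of a run into eras. Everything here is combinatorics of the head
positions `h i t` (tape `i`, time `t`), of the phase numbers `P t` and of the numbers `blk i p` of
the initial blocks.
-/

namespace Vale.Agent.P338.R2.H313

open Finset

section eras

variable {ι : Type} (h : ι → ℕ → ℕ) (P : ℕ → ℕ) (blk : ι → ℕ → ℕ)

open Classical in
/-- The starting time of the phase of the time `t`. -/
noncomputable def phs (t : ℕ) : ℕ := Nat.find (⟨t, rfl⟩ : ∃ u, P u = P t)

open Classical in
/-- The last time before `a` at which the head `i` is on the cell `p` (junk value `0`). -/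
noncomputable def lastV (i : ι) (p a : ℕ) : ℕ := Nat.findGreatest (fun t => t < a ∧ h i t = p) a

open Classical in
/-- The source of the contents of the cell `p` of the tape `i` at the time `a`: its initial block,
or the era of its last visit. -/
noncomputable def src (st : ℕ → ℕ) (i : ι) (p a : ℕ) : ℕ ⊕ ℕ :=
  if ∃ t < a, h i t = p then Sum.inr (st (lastV h i p a)) else Sum.inl (blk i p)

open Classical in
/-- Auxiliary: the starting times of the eras of the times up to `t`. -/
noncomputable def stF : ℕ → ℕ → ℕ
  | 0, _ => 0
  | t + 1, u =>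
    if u ≤ t then stF t u
    else if P (t + 1) = P t ∧ ∀ i, src h blk (stF t) i (h i (t + 1)) (phs P (t + 1)) =
        src h blk (stF t) i (h i t) (phs P t) then stF t t
    else t + 1

/-- The starting time of the era of the time `t`. -/
noncomputable def st (t : ℕ) : ℕ := stF h P blk t t

/-- The source of the cell under the head `i` at the time `t`. -/
noncomputable def srcT (i : ι) (t : ℕ) : ℕ ⊕ ℕ := src h blk (st h P blk) i (h i t) (phs P t)

end eras

section lemmas

variable {ι : Type} {h : ι → ℕ → ℕ} {P : ℕ → ℕ} {blk : ι → ℕ → ℕ}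

theorem P_phs (t : ℕ) : P (phs P t) = P t := by
  classical
  unfold phs
  exact Nat.find_spec (⟨t, rfl⟩ : ∃ u, P u = P t)

theorem phs_le (t : ℕ) : phs P t ≤ t := by
  classical
  unfold phs
  exact Nat.find_min' _ rfl

theorem phs_le_of_eq {t u : ℕ} (hu : P u = P t) : phs P t ≤ u := by
  classical
  unfold phs
  exact Nat.find_min' _ hu

theorem phs_congr {t u : ℕ} (hu : P u = P t) : phs P u = phs P t :=
  le_antisymm (phs_le_of_eq ((P_phs t).trans hu.symm)) (phs_le_of_eq ((P_phs u).trans hu))

/-- Before the start of a phase the phase numbers are smaller. -/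
theorem lt_of_lt_phs (hP : Monotone P) {t u : ℕ} (hu : u < phs P t) : P u < P t := by
  have h1 : P u ≤ P t := hP (hu.le.trans (phs_le t))
  rcases h1.lt_or_eq with h2 | h2
  · exact h2
  · exact absurd (phs_le_of_eq h2) (by omega)

theorem lastV_spec {i : ι} {p a : ℕ} (hex : ∃ t < a, h i t = p) :
    lastV h i p a < a ∧ h i (lastV h i p a) = p := by
  classical
  obtain ⟨t, h1, h2⟩ := hex
  unfold lastV
  exact Nat.findGreatest_spec (P := fun t => t < a ∧ h i t = p) h1.le ⟨h1, h2⟩

theorem le_lastV {i : ι} {p a t : ℕ} (h1 : t < a) (h2 : h i t = p) : t ≤ lastV h i p a := by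
  classical
  unfold lastV
  exact Nat.le_findGreatest h1.le ⟨h1, h2⟩

theorem src_congr {s₁ s₂ : ℕ → ℕ} {i : ι} {p a : ℕ} (hs : ∀ u < a, s₁ u = s₂ u) :
    src h blk s₁ i p a = src h blk s₂ i p a := by
  unfold src
  by_cases hex : ∃ t < a, h i t = p
  · rw [if_pos hex, if_pos hex, hs _ (lastV_spec hex).1]
  · rw [if_neg hex, if_neg hex]

theorem stF_eq {t u : ℕ} (hu : u ≤ t) : stF h P blk t u = st h P blk u := by
  induction t with
  | zero =>
    have : u = 0 := by omega
    subst this
    rfl
  | succ t ih =>
    rcases Nat.lt_or_ge t u with h1 | h1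
    · have : u = t + 1 := by omega
      subst this
      rfl
    · rw [stF, if_pos h1, ih h1]

theorem st_zero : st h P blk 0 = 0 := rfl

open Classical in
theorem st_succ (t : ℕ) : st h P blk (t + 1) =
    if P (t + 1) = P t ∧ ∀ i, srcT h P blk i (t + 1) = srcT h P blk i t then st h P blk t
    else t + 1 := by
  unfold st
  rw [stF, if_neg (by omega)]
  by_cases h0 : P (t + 1) = P t
  · have h1 : ∀ i p, ∀ v ≤ t, src h blk (stF h P blk t) i p (phs P v) =
        src h blk (st h P blk) i p (phs P v) := by
      intro i p v hv
      apply src_congr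
      intro u hu
      have := phs_le (P := P) v
      exact stF_eq (by omega)
    have h2 : phs P (t + 1) = phs P t := phs_congr h0
    simp only [srcT, h2, h1 _ _ t le_rfl]
  · rw [if_neg fun h1 => h0 h1.1, if_neg fun h1 => h0 h1.1]

theorem st_le (t : ℕ) : st h P blk t ≤ t := by
  classical
  induction t with
  | zero => exact le_of_eq st_zero
  | succ t ih =>
    rw [st_succ]
    split_ifs <;> omega

theorem st_succ_cases (t : ℕ) :
    (st h P blk (t + 1) = st h P blk t ∧ P (t + 1) = P t ∧
      ∀ i, srcT h P blk i (t + 1) = srcT h P blk i t) ∨ st h P blk (t + 1) = t + 1 := by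
  classical
  rw [st_succ]
  split_ifs with h1
  · exact Or.inl ⟨rfl, h1⟩
  · exact Or.inr rfl

theorem st_mono : Monotone (st h P blk) := by
  apply monotone_nat_of_le_succ
  intro t
  rcases st_succ_cases (h := h) (P := P) (blk := blk) t with h1 | h1
  · exact h1.1.ge
  · rw [h1]
    have := st_le (h := h) (P := P) (blk := blk) t
    omega

theorem P_st (t : ℕ) : P (st h P blk t) = P t := by
  induction t with
  | zero => rfl
  | succ t ih =>
    rcases st_succ_cases (h := h) (P := P) (blk := blk) t with h1 | h1
    · rw [h1.1, ih, h1.2.1]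
    · rw [h1]

theorem srcT_st (i : ι) (t : ℕ) : srcT h P blk i (st h P blk t) = srcT h P blk i t := by
  induction t with
  | zero => rfl
  | succ t ih =>
    rcases st_succ_cases (h := h) (P := P) (blk := blk) t with h1 | h1
    · rw [h1.1, ih, h1.2.2]
    · rw [h1]

/-- The times between the start of an era and a time of this era belong to this era. -/
theorem st_eq_of_le {t u : ℕ} (h1 : st h P blk t ≤ u) (h2 : u ≤ t) :
    st h P blk u = st h P blk t := by
  induction t with
  | zero =>
    have : u = 0 := by omega
    rw [this]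
  | succ t ih =>
    rcases Nat.lt_or_ge t u with h3 | h3
    · have : u = t + 1 := by omega
      rw [this]
    · rcases st_succ_cases (h := h) (P := P) (blk := blk) t with h4 | h4
      · rw [h4.1]
        exact ih (by rw [← h4.1]; exact h1) h3
      · omega

theorem st_st (t : ℕ) : st h P blk (st h P blk t) = st h P blk t :=
  st_eq_of_le le_rfl (st_le t)

end lemmas

end Vale.Agent.P338.R2.H313
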