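import Vale.Agent.P338.R2.H313.Run

/-!
P338, unconditional lower bound: two runs with the same advice agree locally.
-/

namespace Vale.Agent.P338.R2.H313

open Vale.Agent.P338.R2.H898

section count

variable {p : ℕ → Prop} [DecidablePred p]

theorem count_pred {t r : ℕ} (h : Nat.count p t = r + 1) :
    ∃ s < t, p s ∧ Nat.count p s = r ∧ ∀ x, s < x → x < t → ¬ p x := by
  induction t with
  | zero => simp at h
  | succ t ih =>
    rw [Nat.count_succ] at h
    by_cases hp : p t
    · refine ⟨t, by omega, hp, by simpa [hp] using h, fun x h1 h2 => by omega⟩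
    · obtain ⟨s, hs, h1, h2, h3⟩ := ih (by simpa [hp] using h)
      refine ⟨s, by omega, h1, h2, fun x h4 h5 => ?_⟩
      rcases Nat.lt_succ_iff_lt_or_eq.1 h5 with h6 | h6
      · exact h3 x h4 h6
      · subst h6; exact hp

theorem exists_of_lt_count {T r : ℕ} (h : r < Nat.count p T) :
    ∃ t < T, p t ∧ Nat.count p t = r := by
  induction T with
  | zero => simp at h
  | succ T ih =>
    rw [Nat.count_succ] at h
    by_cases h1 : r < Nat.count p T
    · obtain ⟨t, ht, h2⟩ := ih h1
      exact ⟨t, by omega, h2⟩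
    · by_cases hp : p T
      · simp only [hp, if_true] at h
        exact ⟨T, by omega, hp, by omega⟩
      · simp only [hp, if_false] at h
        omega

end count

/-- The time `t` is a step of the run on `w` with the head of `W` in `Z`. -/
def Vis (A : MTM) (W : A.Tape) (Z : ℕ → Prop) (w : List Letter) (t : ℕ) : Prop :=
  t < A.time w ∧ Z ((A.conf w t).head W)

open Classical in
/-- The number of visits before the time `t`. -/
noncomputable def rk (A : MTM) (W : A.Tape) (Z : ℕ → Prop) (w : List Letter) (t : ℕ) : ℕ :=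
  Nat.count (Vis A W Z w) t

/-- A visit which is the first of the slice or not preceded by a visit. -/
def Ent (A : MTM) (W : A.Tape) (Z : ℕ → Prop) (w : List Letter) (a t : ℕ) : Prop :=
  rk A W Z w t = a ∨ t = 0 ∨ ¬ Vis A W Z w (t - 1)

/-- What is recorded of a configuration at an entry. -/
abbrev Snap (A : MTM) (T s : ℕ) : Type :=
  A.State × (A.Tape → Fin (T + 1)) × (A.Tape → Fin s → A.Sym) × (A.Tape → A.Sym)

/-- The record of a configuration. -/
def snap {A : MTM} (T s : ℕ) (c : A.Conf) : Snap A T s :=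
  (c.state, fun i => Fin.ofNat (T + 1) (c.head i), fun i p => c.tape i p,
    fun i => c.tape i (c.head i))

theorem snap_inj {A : MTM} {T s : ℕ} {c c' : A.Conf} (h : snap T s c = snap T s c')
    (hc : ∀ i, c.head i ≤ T) (hc' : ∀ i, c'.head i ≤ T) :
    c.state = c'.state ∧ c.head = c'.head ∧ (∀ i, ∀ p < s, c.tape i p = c'.tape i p) ∧
      ∀ i, c.tape i (c.head i) = c'.tape i (c'.head i) := by
  simp only [snap, Prod.mk.injEq] at h
  obtain ⟨h1, h2, h3, h4⟩ := h
  refine ⟨h1, ?_, fun i p hp => ?_, fun i => congrFun h4 i⟩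
  · funext i
    have := congrArg Fin.val (congrFun h2 i)
    simp only [Fin.ofNat] at this
    rwa [Nat.mod_eq_of_lt (Nat.lt_succ_of_le (hc i)), Nat.mod_eq_of_lt (Nat.lt_succ_of_le (hc' i))]
      at this
  · exact congrFun (congrFun h3 i) ⟨p, hp⟩

/-- The entries of a slice: visits with the numbers `a, …, a + R - 1`. -/
def entries (A : MTM) (W : A.Tape) (Z : ℕ → Prop) (T s θ a R : ℕ) (w : List Letter) :
    Set (Fin θ × Snap A T s) :=
  {x | ∃ t, Vis A W Z w t ∧ rk A W Z w t = a + x.1 ∧ (x.1 : ℕ) < R ∧ Ent A W Z w a t ∧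
    x.2 = snap T s (A.conf w t)}

section loc

variable {A : MTM} {W : A.Tape} {Sh : A.Tape → Prop} {s : ℕ} {Z : ℕ → Prop}

theorem rk_inj {w : List Letter} {t t' : ℕ} (h : Vis A W Z w t) (h' : Vis A W Z w t')
    (he : rk A W Z w t = rk A W Z w t') : t = t' := by
  classical
  unfold rk at he
  exact Nat.count_injective h h' he

theorem rk_succ_of_vis {w : List Letter} {t : ℕ} (h : Vis A W Z w t) :
    rk A W Z w (t + 1) = rk A W Z w t + 1 := by
  classical
  unfold rk
  rw [Nat.count_succ, if_pos h]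

theorem rk_succ_of_not_vis {w : List Letter} {t : ℕ} (h : ¬ Vis A W Z w t) :
    rk A W Z w (t + 1) = rk A W Z w t := by
  classical
  unfold rk
  rw [Nat.count_succ, if_neg h]
  rfl

theorem rk_mono {w : List Letter} {t t' : ℕ} (h : t ≤ t') : rk A W Z w t ≤ rk A W Z w t' := by
  classical
  unfold rk
  exact Nat.count_monotone _ h

/-- The previous visit. -/
theorem exists_pred {w : List Letter} {t r : ℕ} (h : rk A W Z w t = r + 1) :
    ∃ s < t, Vis A W Z w s ∧ rk A W Z w s = r ∧ ∀ x, s < x → x < t → ¬ Vis A W Z w x := by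
  classical
  unfold rk at h ⊢
  exact count_pred h

theorem exists_rk {w : List Letter} {T r : ℕ} (h : r < rk A W Z w T) :
    ∃ t < T, Vis A W Z w t ∧ rk A W Z w t = r := by
  classical
  unfold rk at h ⊢
  exact exists_of_lt_count h

theorem local_agree {w w' : List Letter} {T θ a R : ℕ}
    (hT : A.time w ≤ T) (hT' : A.time w' ≤ T) (hR : R ≤ θ)
    (hs : ∀ t i, i ≠ W → Sh i → (A.conf w t).head i < s)
    (hM : ∀ i, i ≠ W → ¬ Sh i → ReadOnly A i ∨ OneWay A i)
    (hE : entries A W Z T s θ a R w = entries A W Z T s θ a R w')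
    (hZ0 : ∀ t t', Vis A W Z w t → rk A W Z w t = a → Vis A W Z w' t' → rk A W Z w' t' = a →
      ∀ p, Z p → (A.conf w t).tape W p = (A.conf w' t').tape W p)
    (hI : A.inp ≠ W → ¬ Sh A.inp → ∀ t, Vis A W Z w t → a ≤ rk A W Z w t →
      rk A W Z w t < a + R → w[(A.conf w t).head A.inp]? = w'[(A.conf w t).head A.inp]?) :
    ∀ ρ < R, ∀ t t', Vis A W Z w t → rk A W Z w t = a + ρ → Vis A W Z w' t' →
      rk A W Z w' t' = a + ρ → Agree A W Sh s Z (A.conf w t) (A.conf w' t') := by
  -- the entries agree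
  have key : ∀ ρ < R, ∀ t t', Vis A W Z w t → rk A W Z w t = a + ρ → Vis A W Z w' t' →
      rk A W Z w' t' = a + ρ → Ent A W Z w a t →
      Ent A W Z w' a t' ∧ snap T s (A.conf w t) = snap T s (A.conf w' t') := by
    intro ρ hρ t t' h1 h2 h3 h4 h5
    have h6 : ((⟨ρ, by omega⟩ : Fin θ), snap T s (A.conf w t)) ∈
        entries A W Z T s θ a R w := ⟨t, h1, h2, hρ, h5, rfl⟩
    rw [hE] at h6
    obtain ⟨t'', g1, g2, g3, g4, g5⟩ := h6
    have g6 : t'' = t' := rk_inj g1 h3 (g2.trans h4.symm)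
    subst g6
    exact ⟨g4, g5⟩
  have key' : ∀ ρ < R, ∀ t t', Vis A W Z w t → rk A W Z w t = a + ρ → Vis A W Z w' t' →
      rk A W Z w' t' = a + ρ → Ent A W Z w' a t' → Ent A W Z w a t := by
    intro ρ hρ t t' h1 h2 h3 h4 h5
    have h6 : ((⟨ρ, by omega⟩ : Fin θ), snap T s (A.conf w' t')) ∈
        entries A W Z T s θ a R w' := ⟨t', h3, h4, hρ, h5, rfl⟩
    rw [← hE] at h6
    obtain ⟨t'', g1, g2, g3, g4, g5⟩ := h6
    have g6 : t'' = t := rk_inj g1 h1 (g2.trans h2.symm)
    subst g6
    exact g4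
  have hsn : ∀ t t', Vis A W Z w t → Vis A W Z w' t' →
      snap T s (A.conf w t) = snap T s (A.conf w' t') →
      (∀ p, Z p → (A.conf w t).tape W p = (A.conf w' t').tape W p) →
      Agree A W Sh s Z (A.conf w t) (A.conf w' t') := by
    intro t t' h1 h2 h3 h4
    obtain ⟨e1, e2, e3, e4⟩ := snap_inj h3
      (fun i => (head_conf_le w t i).trans (h1.1.le.trans hT))
      (fun i => (head_conf_le w' t' i).trans (h2.1.le.trans hT'))
    exact ⟨e1, e2, h4, fun i _ _ p hp => e3 i p hp, fun i _ _ => e4 i⟩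
  intro ρ
  induction ρ with
  | zero =>
    intro hρ t t' h1 h2 h3 h4
    have h5 : Ent A W Z w a t := Or.inl h2
    exact hsn t t' h1 h3 (key 0 hρ t t' h1 h2 h3 h4 h5).2 (hZ0 t t' h1 h2 h3 h4)
  | succ ρ ih =>
    intro hρ t t' h1 h2 h3 h4
    obtain ⟨t₁, a1, a2, a3, a4⟩ := exists_pred (r := a + ρ) (by rw [h2]; omega)
    obtain ⟨t₁', b1, b2, b3, b4⟩ := exists_pred (r := a + ρ) (by rw [h4]; omega)
    have hag := ih (by omega) t₁ t₁' a2 a3 b2 b3
    have hz1 : ∀ p, Z p → (A.conf w (t₁ + 1)).tape W p = (A.conf w' (t₁' + 1)).tape W p := by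
      intro p hp
      rw [conf_succ, conf_succ]
      exact hag.zone_next a2.2 (hs t₁) hp
    by_cases hent : Ent A W Z w a t
    · refine hsn t t' h1 h3 (key _ hρ t t' h1 h2 h3 h4 hent).2 fun p hp => ?_
      rw [tape_const Z w (show t₁ + 1 ≤ t from a1)
          (fun r c1 c2 c3 => a4 r (by omega) c2 ⟨by have := h1.1; omega, c3⟩) hp,
        tape_const Z w' (show t₁' + 1 ≤ t' from b1)
          (fun r c1 c2 c3 => b4 r (by omega) c2 ⟨by have := h3.1; omega, c3⟩) hp]
      exact hz1 p hp
    · have hent' : ¬ Ent A W Z w' a t' := fun h => hent (key' _ hρ t t' h1 h2 h3 h4 h)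
      have e1 : t = t₁ + 1 := by
        unfold Ent at hent
        push Not at hent
        obtain ⟨_, c2, c3⟩ := hent
        by_contra hne
        exact a4 (t - 1) (by omega) (by omega) c3
      have e2 : t' = t₁' + 1 := by
        unfold Ent at hent'
        push Not at hent'
        obtain ⟨_, c2, c3⟩ := hent'
        by_contra hne
        exact b4 (t' - 1) (by omega) (by omega) c3
      subst e1 e2
      refine hag.next a2.2 (hs t₁) hM fun c1 c2 => ?_
      exact hI c1 c2 _ h1 (by omega) (by omega)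

end loc

end Vale.Agent.P338.R2.H313
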