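import Vale.Agent.P338.R2.H313.Local
import Vale.Agent.P338.R2.H101.Word

/-!
P338, unconditional lower bound: the input cells that can be read in a slice, as a function of the
record of the slice.
-/

namespace Vale.Agent.P338.R2.H313

open Vale.Agent.P338.R2.H898 Vale.Agent.P338.R2.H101 Finset

section def_

variable {A : MTM} {T s θ : ℕ}

/-- `e` is the index of an entry. -/
def Idx (E : Set (Fin θ × Snap A T s)) (e : ℕ) : Prop := ∃ x ∈ E, (x.1 : ℕ) = e

open Classical in
/-- The last entry up to `ρ`. -/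
noncomputable def lastE (E : Set (Fin θ × Snap A T s)) (ρ : ℕ) : ℕ := Nat.findGreatest (Idx E) ρ

open Classical in
/-- The number of steps following the entry `e`, up to the next entry. -/
noncomputable def fib (E : Set (Fin θ × Snap A T s)) (R e : ℕ) : ℕ :=
  #{ρ ∈ range R | lastE E ρ = e}

/-- The cells of the input tape that can be visited. -/
def Reads (E : Set (Fin θ × Snap A T s)) (R : ℕ) : Set ℕ :=
  {p | ∃ x ∈ E, p < (x.2.2.1 A.inp : ℕ) + fib E R x.1 ∧ (x.2.2.1 A.inp : ℕ) < p + fib E R x.1}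

theorem lastE_eq {E : Set (Fin θ × Snap A T s)} {e ρ : ℕ} (he : Idx E e) (heρ : e ≤ ρ)
    (h : ∀ j, e < j → j ≤ ρ → ¬ Idx E j) : lastE E ρ = e := by
  classical
  unfold lastE
  rw [Nat.findGreatest_eq_iff]
  exact ⟨heρ, fun _ => he, fun {n} h1 h2 => h n h1 h2⟩

theorem le_fib {E : Set (Fin θ × Snap A T s)} {R e ρ : ℕ} (he : Idx E e) (heρ : e ≤ ρ)
    (hρ : ρ < R) (h : ∀ j, e < j → j ≤ ρ → ¬ Idx E j) : ρ + 1 ≤ e + fib E R e := by
  classical
  have h1 : Icc e ρ ⊆ {ρ' ∈ range R | lastE E ρ' = e} := by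
    intro ρ' h2
    rw [Finset.mem_Icc] at h2
    rw [Finset.mem_filter, Finset.mem_range]
    exact ⟨by omega, lastE_eq he h2.1 fun j h3 h4 => h j h3 (by omega)⟩
  have h2 := Finset.card_le_card h1
  rw [Nat.card_Icc] at h2
  have h3 : fib E R e = #{ρ' ∈ range R | lastE E ρ' = e} := rfl
  omega

theorem sum_fib_le {E : Finset (Fin θ × Snap A T s)} (hE : ∀ x ∈ E, ∀ y ∈ E, x.1 = y.1 → x = y)
    (R : ℕ) : ∑ x ∈ E, fib (E : Set (Fin θ × Snap A T s)) R x.1 ≤ R := by
  classical
  have h1 : ∑ x ∈ E, fib (E : Set (Fin θ × Snap A T s)) R x.1 =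
      #(E.biUnion fun x => {ρ ∈ range R | lastE (E : Set (Fin θ × Snap A T s)) ρ = x.1}) := by
    rw [Finset.card_biUnion]
    · rfl
    · intro x hx y hy hxy
      rw [Function.onFun, Finset.disjoint_left]
      intro ρ h1 h2
      rw [Finset.mem_filter] at h1 h2
      exact hxy (hE x hx y hy (Fin.ext (h1.2.symm.trans h2.2)))
  rw [h1]
  calc _ ≤ #(range R) := Finset.card_le_card (Finset.biUnion_subset.2 fun x _ =>
        Finset.filter_subset _ _)
    _ = R := Finset.card_range R

end def_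

section run

variable {A : MTM} {W : A.Tape} {s : ℕ} {Z : ℕ → Prop}

theorem consec {w : List Letter} {T θ a R e : ℕ} (hR : R ≤ θ) (j : ℕ)
    (h : ∀ i, e < i → i ≤ e + j → ¬ Idx (entries A W Z T s θ a R w) i) (hj : e + j < R)
    {t₀ t : ℕ} (h0 : Vis A W Z w t₀) (h1 : rk A W Z w t₀ = a + e)
    (h2 : Vis A W Z w t) (h3 : rk A W Z w t = a + e + j) : t = t₀ + j := by
  induction j generalizing t with
  | zero => exact rk_inj h2 h0 (by rw [h3, Nat.add_zero, Nat.add_zero, h1])
  | succ j ih =>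
    obtain ⟨t₁, a1, a2, a3, a4⟩ := exists_pred (r := a + e + j) (by rw [h3]; omega)
    have h4 := ih (fun i h5 h6 => h i h5 (by omega)) (by omega) a2 a3
    have h5 : ¬ Ent A W Z w a t := by
      intro h6
      refine h (e + (j + 1)) (by omega) le_rfl ⟨(⟨e + (j + 1), by omega⟩, snap T s (A.conf w t)),
        ⟨t, h2, ?_, hj, h6, rfl⟩, rfl⟩
      rw [h3]
      simp only
      omega
    unfold Ent at h5
    push Not at h5
    obtain ⟨-, h6, h7⟩ := h5
    have h8 : t₁ = t - 1 := by
      by_contra hne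
      exact a4 (t - 1) (by omega) (by omega) h7
    omega

theorem head_mem_reads {w : List Letter} {T θ a R : ℕ} (hT : A.time w ≤ T) (hR : R ≤ θ)
    {ρ t : ℕ} (hρ : ρ < R) (h1 : Vis A W Z w t) (h2 : rk A W Z w t = a + ρ) :
    (A.conf w t).head A.inp ∈ Reads (entries A W Z T s θ a R w) R := by
  classical
  set E := entries A W Z T s θ a R w with hE
  -- the first visit of the slice is an entry
  have h0 : Idx E 0 := by
    obtain ⟨t₀, g1, g2⟩ : ∃ t₀, Vis A W Z w t₀ ∧ rk A W Z w t₀ = a := by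
      rcases Nat.eq_zero_or_pos ρ with h | h
      · exact ⟨t, h1, by omega⟩
      · obtain ⟨t₀, -, g1, g2⟩ := exists_rk (A := A) (W := W) (Z := Z) (w := w) (T := t) (r := a)
          (by omega)
        exact ⟨t₀, g1, g2⟩
    exact ⟨(⟨0, by omega⟩, snap T s (A.conf w t₀)), ⟨t₀, g1, by simpa using g2, by simp; omega,
      Or.inl g2, rfl⟩, rfl⟩
  set e := Nat.findGreatest (Idx E) ρ with he
  have h3 : Idx E e := Nat.findGreatest_spec (P := Idx E) (Nat.zero_le ρ) h0
  have h4 : e ≤ ρ := Nat.findGreatest_le ρ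
  have h5 : ∀ j, e < j → j ≤ ρ → ¬ Idx E j := fun j h6 h7 =>
    Nat.findGreatest_is_greatest h6 h7
  obtain ⟨x, hx, hxe⟩ := h3
  have hx' := hx
  obtain ⟨t₀, g1, g2, g3, g4, g5⟩ := hx'
  have h6 : t = t₀ + (ρ - e) := by
    refine consec (s := s) (T := T) (θ := θ) (R := R) (e := e) hR (ρ - e) (fun i h7 h8 => h5 i h7 (by omega))
      (by omega) g1 (by rw [g2, hxe]) h1 (by rw [h2]; omega)
  have h7 := head_conf_add_le (A := A) w t₀ (ρ - e) A.inp
  rw [← h6] at h7
  have h8 := le_fib (R := R) ⟨x, hx, hxe⟩ h4 hρ h5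
  have h9 : ((x.2.2.1 A.inp : Fin (T + 1)) : ℕ) = (A.conf w t₀).head A.inp := by
    rw [g5]
    simp only [snap, Fin.ofNat]
    apply Nat.mod_eq_of_lt
    have := head_conf_le w t₀ A.inp
    have := g1.1
    omega
  refine ⟨x, hx, ?_, ?_⟩
  · rw [h9, hxe]
    omega
  · rw [h9, hxe]
    omega

theorem entries_functional {w : List Letter} {T θ a R : ℕ} :
    ∀ x ∈ entries A W Z T s θ a R w, ∀ y ∈ entries A W Z T s θ a R w, x.1 = y.1 → x = y := by
  rintro x ⟨t, h1, h2, -, -, h3⟩ y ⟨t', h1', h2', -, -, h3'⟩ hxy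
  have h4 : t = t' := rk_inj h1 h1' (by rw [h2, h2', hxy])
  subst h4
  exact Prod.ext hxy (h3.trans h3'.symm)

end run

section coords

open Classical in
/-- The coordinates stored in a set of cells. -/
noncomputable def coords (n D X Y : ℕ) (P : Set ℕ) : Finset (Fin X ⊕ Fin Y) :=
  {i | ∃ p ∈ P, coord n D X Y p = some i}

theorem mem_coords {n D X Y : ℕ} {P : Set ℕ} {i : Fin X ⊕ Fin Y} :
    i ∈ coords n D X Y P ↔ ∃ p ∈ P, coord n D X Y p = some i := by
  simp [coords]

theorem card_coords_interval {n D X Y : ℕ} (hD : 1 ≤ D) (hY : D * Y ≤ n) {P : Set ℕ} {lo L : ℕ}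
    (hP : ∀ p ∈ P, lo ≤ p ∧ p < lo + L) : D * #(coords n D X Y P) ≤ L + D := by
  classical
  -- choose the cells
  have h1 : ∀ i ∈ coords n D X Y P, ∃ p ∈ P, coord n D X Y p = some i := fun i hi =>
    mem_coords.1 hi
  choose! f hf hf' using h1
  have h2 : #(coords n D X Y P) ≤ L / D + 1 := by
    have h3 : #(coords n D X Y P) ≤ #(range (L / D + 1)) := by
      apply Finset.card_le_card_of_injOn (fun i => (f i - lo) / D)
      · intro i hi
        have h4 := hP _ (hf i hi)
        simp only [Finset.coe_range, Set.mem_Iio]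
        have h5 : (f i - lo) / D ≤ L / D := Nat.div_le_div_right (by omega)
        omega
      · intro i hi j hj hij
        simp only at hij
        by_contra hne
        have h6 := hP _ (hf i hi)
        have h7 := hP _ (hf j hj)
        have h8 : ∀ a b : ℕ, a + D ≤ b → a / D ≠ b / D := by
          intro a b hab h
          have h9 : a / D + 1 ≤ b / D := by
            rw [Nat.le_div_iff_mul_le (by omega)]
            have := Nat.div_mul_le_self a D
            nlinarith
          omega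
        rcases lt_trichotomy (f i) (f j) with h9 | h9 | h9
        · have h10 := coord_sep hY _ _ _ _ (hf' i hi) (hf' j hj) h9
          exact h8 _ _ (by omega) hij
        · have h10 := hf' i hi
          rw [h9, hf' j hj] at h10
          exact hne (Option.some.inj h10).symm
        · have h10 := coord_sep hY _ _ _ _ (hf' j hj) (hf' i hi) h9
          exact h8 _ _ (by omega) hij.symm
    rwa [Finset.card_range] at h3
  have h3 := Nat.div_mul_le_self L D
  nlinarith

theorem card_coords_reads {A : MTM} {T s θ : ℕ} {n D X Y : ℕ} (hD : 1 ≤ D) (hY : D * Y ≤ n)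
    (E : Finset (Fin θ × Snap A T s)) (hE : ∀ x ∈ E, ∀ y ∈ E, x.1 = y.1 → x = y) (R : ℕ) :
    D * #(coords n D X Y (Reads (E : Set (Fin θ × Snap A T s)) R)) ≤ 2 * R + D * #E := by
  classical
  set P : Fin θ × Snap A T s → Set ℕ := fun x =>
    {p | p < (x.2.2.1 A.inp : ℕ) + fib (E : Set (Fin θ × Snap A T s)) R x.1 ∧
      (x.2.2.1 A.inp : ℕ) < p + fib (E : Set (Fin θ × Snap A T s)) R x.1} with hP
  have h1 : coords n D X Y (Reads (E : Set (Fin θ × Snap A T s)) R) ⊆
      E.biUnion fun x => coords n D X Y (P x) := by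
    intro i hi
    rw [mem_coords] at hi
    obtain ⟨p, ⟨x, hx, hp⟩, hpi⟩ := hi
    rw [Finset.mem_biUnion]
    exact ⟨x, hx, mem_coords.2 ⟨p, hp, hpi⟩⟩
  have h2 : ∀ x ∈ E, D * #(coords n D X Y (P x)) ≤
      2 * fib (E : Set (Fin θ × Snap A T s)) R x.1 + D := by
    intro x _
    apply card_coords_interval hD hY
      (lo := (x.2.2.1 A.inp : ℕ) + 1 - fib (E : Set (Fin θ × Snap A T s)) R x.1)
    intro p hp
    simp only [hP, Set.mem_ofPred_eq] at hp
    omega
  calc D * #(coords n D X Y (Reads (E : Set (Fin θ × Snap A T s)) R))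
      ≤ D * ∑ x ∈ E, #(coords n D X Y (P x)) :=
        Nat.mul_le_mul_left _ ((Finset.card_le_card h1).trans Finset.card_biUnion_le)
    _ = ∑ x ∈ E, D * #(coords n D X Y (P x)) := Finset.mul_sum _ _ _
    _ ≤ ∑ x ∈ E, (2 * fib (E : Set (Fin θ × Snap A T s)) R x.1 + D) := Finset.sum_le_sum h2
    _ = 2 * ∑ x ∈ E, fib (E : Set (Fin θ × Snap A T s)) R x.1 + D * #E := by
        rw [Finset.sum_add_distrib, ← Finset.mul_sum, Finset.sum_const, smul_eq_mul, mul_comm D]
    _ ≤ 2 * R + D * #E := by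
        have := sum_fib_le hE R
        omega

end coords

end Vale.Agent.P338.R2.H313
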