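import Vale.Agent.P338.R2.H313.RevLocal

/-!
P338, reversals: eras of two runs with the same history tree agree.
-/

namespace Vale.Agent.P338.R2.H313

open Vale.Agent.P338.R2.H898 Finset

variable {A : MTM} {Sh : A.Tape → Prop} {B : ℕ → ℕ}

attribute [local instance] fintypeLong

theorem rec_inj {T s : ℕ} {w w' : List Letter} {c c' : ℕ} (hT : A.time w ≤ T)
    (hT' : A.time w' ≤ T) (hc : c < A.time w) (hc' : c' < A.time w')
    (h : rec' Sh B T s w c = rec' Sh B T s w' c') :
    Agr A Sh s (A.conf w c) (A.conf w' c') ∧ elen A Sh B w c = elen A Sh B w' c' := by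
  simp only [rec', Prod.mk.injEq] at h
  obtain ⟨⟨h1, h2, h3, h4⟩, h5⟩ := h
  refine ⟨⟨h1, ?_, fun i _ p hp => congrFun (congrFun h3 i) ⟨p, hp⟩, fun i _ => congrFun h4 i⟩, ?_⟩
  · funext i
    have := congrArg Fin.val (congrFun h2 i)
    simp only [Fin.ofNat] at this
    have g1 := head_conf_le w c i
    have g2 := head_conf_le w' c' i
    rwa [Nat.mod_eq_of_lt (by omega), Nat.mod_eq_of_lt (by omega)] at this
  · have := congrArg Fin.val h5
    simp only [Fin.ofNat] at this
    have g1 := elen_le (A := A) (Sh := Sh) (B := B) (w := w) c
    have g2 := elen_le (A := A) (Sh := Sh) (B := B) (w := w') c'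
    rwa [Nat.mod_eq_of_lt (by omega), Nat.mod_eq_of_lt (by omega)] at this

/-- If the eras of the last visits of a cell agree, then the last visits have the same place in
the eras. -/
theorem last_visits {w w' : List Letter} {i : Long A Sh} {p a a' e e' : ℕ}
    (hex : ∃ t < a, hd A Sh w i t = p) (hex' : ∃ t < a', hd A Sh w' i t = p)
    (he : era A Sh B w (lastV (hd A Sh w) i p a) = e)
    (he' : era A Sh B w' (lastV (hd A Sh w') i p a') = e')
    (ha : a ≤ A.time w) (ha' : a' ≤ A.time w')
    (hph : ∀ r < elen A Sh B w e, e + r < a)
    (hph' : ∀ r < elen A Sh B w' e', e' + r < a')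
    (hlen : elen A Sh B w e = elen A Sh B w' e')
    {s : ℕ} (hag : ∀ r < elen A Sh B w e, Agr A Sh s (A.conf w (e + r)) (A.conf w' (e' + r))) :
    ∃ r < elen A Sh B w e, lastV (hd A Sh w) i p a = e + r ∧
      lastV (hd A Sh w') i p a' = e' + r := by
  obtain ⟨h1, h2⟩ := lastV_spec hex
  obtain ⟨h1', h2'⟩ := lastV_spec hex'
  have hee : era A Sh B w e = e := by rw [← he, era_era]
  have hee' : era A Sh B w' e' = e' := by rw [← he', era_era]
  have hle : e ≤ lastV (hd A Sh w) i p a := by rw [← he]; exact era_le _
  have hle' : e' ≤ lastV (hd A Sh w') i p a' := by rw [← he']; exact era_le _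
  obtain ⟨r, hr⟩ := Nat.exists_eq_add_of_le hle
  obtain ⟨r', hr'⟩ := Nat.exists_eq_add_of_le hle'
  have hrl : r < elen A Sh B w e := by
    rw [lt_elen_iff hee, ← hr]
    exact ⟨by omega, he⟩
  have hrl' : r' < elen A Sh B w' e' := by
    rw [lt_elen_iff hee', ← hr']
    exact ⟨by omega, he'⟩
  -- the time `e' + r` is a visit of the second run
  have g1 : e' + r ≤ lastV (hd A Sh w') i p a' := by
    have g2 := (lt_elen_iff (A := A) (Sh := Sh) (B := B) (w := w') hee' r).1 (hlen ▸ hrl)
    apply le_lastV
    · exact hph' r (hlen ▸ hrl)
    · have g3 := (hag r hrl).head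
      have g4 : (A.conf w' (e' + r)).head i.1 = (A.conf w (e + r)).head i.1 := by rw [g3]
      show (A.conf w' (e' + r)).head i.1 = p
      rw [g4, ← hr]
      exact h2
  have g5 : e + r' ≤ lastV (hd A Sh w) i p a := by
    have g2 := (lt_elen_iff (A := A) (Sh := Sh) (B := B) (w := w) hee r').1 (hlen ▸ hrl')
    apply le_lastV
    · exact hph r' (hlen ▸ hrl')
    · have g3 := (hag r' (hlen ▸ hrl')).head
      have g4 : (A.conf w (e + r')).head i.1 = (A.conf w' (e' + r')).head i.1 := by rw [g3]
      show (A.conf w (e + r')).head i.1 = p
      rw [g4, ← hr']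
      exact h2'
  have g6 : r = r' := by omega
  exact ⟨r, hrl, hr, by rw [hr', g6]⟩

theorem src_inr {w : List Letter} {i : Long A Sh} {p a : ℕ}
    (hex : ∃ t < a, hd A Sh w i t = p) :
    src (hd A Sh w) (bk A Sh B) (st (hd A Sh w) (ph A Sh w) (bk A Sh B)) i p a =
      Sum.inr (era A Sh B w (lastV (hd A Sh w) i p a)) := by
  unfold src
  rw [if_pos hex]
  rfl

theorem src_inl {w : List Letter} {i : Long A Sh} {p a : ℕ}
    (hex : ¬ ∃ t < a, hd A Sh w i t = p) :
    src (hd A Sh w) (bk A Sh B) (st (hd A Sh w) (ph A Sh w) (bk A Sh B)) i p a =
      Sum.inl (bk A Sh B i p) := by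
  unfold src
  rw [if_neg hex]

theorem ph_mono {w : List Letter} : Monotone (ph A Sh w) := phase_mono

theorem tree_agree {w w' : List Letter} {T s b : ℕ} [NeZero b] (hT : A.time w ≤ T)
    (hT' : A.time w' ≤ T) (hs : ∀ t i, Sh i → (A.conf w t).head i < s) :
    ∀ d c c', c < A.time w → c' < A.time w' → era A Sh B w c = c → era A Sh B w' c' = c' →
      ph A Sh w c < d → ph A Sh w' c' < d →
      tree Sh B T s b w d c = tree Sh B T s b w' d c' →
      (∀ p, Leaf (Fin.ofNat b (B p)) d (tree Sh B T s b w d c) → w[p]? = w'[p]?) →
      elen A Sh B w c = elen A Sh B w' c' ∧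
        ∀ r < elen A Sh B w c, Agr A Sh s (A.conf w (c + r)) (A.conf w' (c' + r)) := by
  intro d
  induction d with
  | zero => intro c c' _ _ _ _ h; omega
  | succ d ih =>
    intro c c' hc hc' hec hec' hph hph' htree hleaf
    obtain ⟨hrec, hsub⟩ := Prod.mk.inj (show ((_, _) : Rec A T s ×
      (Long A Sh → Fin b ⊕ Adv (Rec A T s) (Long A Sh) b d)) = (_, _) from htree)
    obtain ⟨hag0, hlen⟩ := rec_inj hT hT' hc hc' hrec
    refine ⟨hlen, fun r => ?_⟩
    induction r with
    | zero => intro _; exact hag0
    | succ r ihr =>
      intro hr
      have hag := ihr (by omega)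
      have hs0 := hs (c + r)
      obtain ⟨g1, g2⟩ := (lt_elen_iff hec (r + 1)).1 hr
      obtain ⟨g1', g2'⟩ := (lt_elen_iff hec' (r + 1)).1 (hlen ▸ hr)
      obtain ⟨f1, f2⟩ := (lt_elen_iff hec r).1 (by omega)
      obtain ⟨f1', f2'⟩ := (lt_elen_iff hec' r).1 (by omega)
      set u := c + r with hu
      set u' := c' + r with hu'
      have hu1 : c + (r + 1) = u + 1 := by omega
      have hu1' : c' + (r + 1) = u' + 1 := by omega
      rw [hu1] at g1 g2 ⊢
      rw [hu1'] at g1' g2' ⊢
      have hhead : (A.conf w (u + 1)).head = (A.conf w' (u' + 1)).head := by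
        rw [conf_succ, conf_succ]
        exact hag.head_next hs0
      refine ⟨?_, hhead, fun i hi p hp => ?_, fun i hi => ?_⟩
      · rw [conf_succ, conf_succ]
        exact hag.state_next hs0
      · rw [conf_succ, conf_succ]
        exact hag.short_next hs0 i hi p hp
      · -- the symbol under a long head
        by_cases hmv : (A.conf w (u + 1)).head i = (A.conf w u).head i
        · -- the head stays
          have hmv' : (A.conf w' (u' + 1)).head i = (A.conf w' u').head i := by
            rw [← hhead, hmv, hag.head]
          rw [hmv, hmv', conf_succ, conf_succ]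
          exact hag.written hs0 i hi
        · have hmv' : (A.conf w' (u' + 1)).head i ≠ (A.conf w' u').head i := by
            rw [← hhead, ← hag.head]
            exact hmv
          set I : Long A Sh := ⟨i, hi⟩ with hI
          -- phases
          have hpu : ph A Sh w (u + 1) = ph A Sh w u := by
            rw [← ph_era (B := B) (u + 1), g2, ← ph_era (B := B) u, f2]
          have hpu' : ph A Sh w' (u' + 1) = ph A Sh w' u' := by
            rw [← ph_era (B := B) (u' + 1), g2', ← ph_era (B := B) u', f2']
          have hpc : ph A Sh w (u + 1) = ph A Sh w c := by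
            rw [← ph_era (B := B) (u + 1), g2]
          have hpc' : ph A Sh w' (u' + 1) = ph A Sh w' c' := by
            rw [← ph_era (B := B) (u' + 1), g2']
          -- the sources
          have hsr : sr A Sh B w I c = sr A Sh B w I (u + 1) := by
            rw [← g2]; exact sr_era I (u + 1)
          have hsr' : sr A Sh B w' I c' = sr A Sh B w' I (u' + 1) := by
            rw [← g2']; exact sr_era I (u' + 1)
          have hp : hd A Sh w' I (u' + 1) = hd A Sh w I (u + 1) := by
            show (A.conf w' (u' + 1)).head i = (A.conf w (u + 1)).head i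
            rw [hhead]
          have hsubI := congrFun hsub I
          rw [hsr, hsr'] at hsubI
          have hau : phs (ph A Sh w) (u + 1) ≤ u := phs_le_of_eq hpu.symm
          have hau' : phs (ph A Sh w') (u' + 1) ≤ u' := phs_le_of_eq hpu'.symm
          show (A.conf w (u + 1)).tape i (hd A Sh w I (u + 1)) =
            (A.conf w' (u' + 1)).tape i (hd A Sh w' I (u' + 1))
          by_cases hex : ∃ t < phs (ph A Sh w) (u + 1), hd A Sh w I t = hd A Sh w I (u + 1)
          · have e1 : sr A Sh B w I (u + 1) = Sum.inr (era A Sh B w
                (lastV (hd A Sh w) I (hd A Sh w I (u + 1)) (phs (ph A Sh w) (u + 1)))) :=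
              src_inr hex
            by_cases hex' : ∃ t < phs (ph A Sh w') (u' + 1),
                hd A Sh w' I t = hd A Sh w' I (u' + 1)
            · have e1' : sr A Sh B w' I (u' + 1) = Sum.inr (era A Sh B w'
                  (lastV (hd A Sh w') I (hd A Sh w' I (u' + 1)) (phs (ph A Sh w') (u' + 1)))) :=
                src_inr hex'
              rw [content_of_visited I hpu hmv hex, content_of_visited I hpu' hmv' hex']
              rw [hp] at e1' hex' ⊢
              set p := hd A Sh w I (u + 1) with hpdef
              set a := phs (ph A Sh w) (u + 1) with ha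
              set a' := phs (ph A Sh w') (u' + 1) with ha'
              set e := era A Sh B w (lastV (hd A Sh w) I p a) with he
              set e' := era A Sh B w' (lastV (hd A Sh w') I p a') with he'
              obtain ⟨l1, l2⟩ := lastV_spec hex
              obtain ⟨l1', l2'⟩ := lastV_spec hex'
              have hle : e ≤ lastV (hd A Sh w) I p a := by rw [he]; exact era_le _
              have hle' : e' ≤ lastV (hd A Sh w') I p a' := by rw [he']; exact era_le _
              have hlt : ph A Sh w e < ph A Sh w (u + 1) := by
                rw [he, ph_era]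
                exact lt_of_lt_phs ph_mono l1
              have hlt' : ph A Sh w' e' < ph A Sh w' (u' + 1) := by
                rw [he', ph_era]
                exact lt_of_lt_phs ph_mono l1'
              rw [e1, e1'] at hsubI
              simp only [Sum.map_inr, Sum.inr.injEq] at hsubI
              obtain ⟨m1, m2⟩ := ih e e' (by omega) (by omega) (by rw [he, era_era])
                (by rw [he', era_era]) (by omega) (by omega) hsubI (by
                  intro q hq
                  apply hleaf
                  refine ⟨I, ?_⟩
                  show Sum.elim (fun m' => m' = Fin.ofNat b (B q))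
                    (fun y => Leaf (Fin.ofNat b (B q)) d y)
                    (Sum.map (Fin.ofNat b) (tree Sh B T s b w d) (sr A Sh B w I c))
                  rw [hsr, e1]
                  exact hq)
              have hfut : ∀ r < elen A Sh B w e, e + r < a := by
                intro r hr
                have ht : ph A Sh w (e + r) = ph A Sh w e := by
                  rw [← ph_era (B := B) (e + r),
                    ((lt_elen_iff (c := e) (by rw [he, era_era]) r).1 hr).2]
                by_contra hcon
                push Not at hcon
                have h1 : ph A Sh w a ≤ ph A Sh w (e + r) := ph_mono hcon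
                have h2 : ph A Sh w a = ph A Sh w (u + 1) := P_phs (P := ph A Sh w) (u + 1)
                omega
              have hfut' : ∀ r < elen A Sh B w' e', e' + r < a' := by
                intro r hr
                have ht : ph A Sh w' (e' + r) = ph A Sh w' e' := by
                  rw [← ph_era (B := B) (e' + r),
                    ((lt_elen_iff (c := e') (by rw [he', era_era]) r).1 hr).2]
                by_contra hcon
                push Not at hcon
                have h1 : ph A Sh w' a' ≤ ph A Sh w' (e' + r) := ph_mono hcon
                have h2 : ph A Sh w' a' = ph A Sh w' (u' + 1) := P_phs (P := ph A Sh w') (u' + 1)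
                omega
              obtain ⟨x, hx, hx1, hx2⟩ := last_visits hex hex' he.symm he'.symm (by omega)
                (by omega) hfut hfut' m1 m2
              have hagx := m2 x hx
              have n1 : (A.conf w (e + x)).head i = p := by rw [← hx1]; exact l2
              have n2 : (A.conf w' (e' + x)).head i = p := by rw [← hx2]; exact l2'
              rw [hx1, hx2, conf_succ, conf_succ]
              have := hagx.written (hs (e + x)) i hi
              rw [n1, n2] at this
              exact this
            · have e1' : sr A Sh B w' I (u' + 1) = Sum.inl _ := src_inl hex'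
              rw [e1, e1'] at hsubI
              simp at hsubI
          · have e1 : sr A Sh B w I (u + 1) = Sum.inl (bk A Sh B I (hd A Sh w I (u + 1))) :=
              src_inl hex
            by_cases hex' : ∃ t < phs (ph A Sh w') (u' + 1),
                hd A Sh w' I t = hd A Sh w' I (u' + 1)
            · have e1' : sr A Sh B w' I (u' + 1) = Sum.inr _ := src_inr hex'
              rw [e1, e1'] at hsubI
              simp at hsubI
            · rw [content_of_not_visited I hpu hmv hex, content_of_not_visited I hpu' hmv' hex', hp]
              by_cases hii : i = A.inp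
              · apply init_tape_inp
                apply hleaf
                refine ⟨I, ?_⟩
                show Sum.elim (fun m' => m' = Fin.ofNat b (B (hd A Sh w I (u + 1))))
                  (fun y => Leaf (Fin.ofNat b (B (hd A Sh w I (u + 1)))) d y)
                  (Sum.map (Fin.ofNat b) (tree Sh B T s b w d) (sr A Sh B w I c))
                rw [hsr, e1]
                simp only [bk, Sum.map_inl, Sum.elim_inl]
                rw [if_pos hii]
              · exact init_tape_of_ne w w' hii _

end Vale.Agent.P338.R2.H313
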