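import Vale.Agent.P338.R2.H313.RevLocal
import Vale.Agent.P338.R2.H313.Read

/-!
P338, reversals: the number of history trees and of their leaves.
-/

namespace Vale.Agent.P338.R2.H313

open Vale.Agent.P338.R2.H898 Vale.Agent.P338.R2.H101 Finset

section card

variable {X K : Type} {b : ℕ}

theorem finite_adv [Finite X] [Finite K] (d : ℕ) : Finite (Adv X K b d) := by
  induction d with
  | zero => exact inferInstanceAs (Finite Unit)
  | succ d ih =>
    exact inferInstanceAs (Finite (X × (K → Fin b ⊕ Adv X K b d)))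

theorem card_adv_succ [Finite X] [Finite K] (d : ℕ) :
    Nat.card (Adv X K b (d + 1)) = Nat.card X * (b + Nat.card (Adv X K b d)) ^ Nat.card K := by
  haveI := finite_adv (X := X) (K := K) (b := b) d
  show Nat.card (X × (K → Fin b ⊕ Adv X K b d)) = _
  rw [Nat.card_prod, Nat.card_fun, Nat.card_sum, Nat.card_fin]

theorem card_adv_le [Finite X] [Finite K] {x : ℕ} (hX : Nat.card X ≤ 2 ^ x) (hb : b ≤ 2 ^ x)
    (d : ℕ) : Nat.card (Adv X K b d) ≤ 2 ^ ((x + 1) * (Nat.card K + 2) ^ (d + 1)) := by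
  -- a sharper bound for the induction
  have key : ∀ d, ∃ y, y + (x + 1) ≤ (x + 1) * (Nat.card K + 2) ^ (d + 1) ∧
      Nat.card (Adv X K b d) ≤ 2 ^ y := by
    intro d
    induction d with
    | zero =>
      refine ⟨0, ?_, ?_⟩
      · rw [Nat.zero_add, Nat.zero_add, pow_one]
        exact Nat.le_mul_of_pos_right _ (by omega)
      · show Nat.card Unit ≤ 2 ^ 0
        simp
    | succ d ih =>
      obtain ⟨y, h1, h2⟩ := ih
      refine ⟨x + Nat.card K * (x + y + 1), ?_, ?_⟩
      · set k := Nat.card K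
        set P := (k + 2) ^ (d + 1) with hP
        have h3 : (x + 1) * (k + 2) ^ (d + 1 + 1) = (x + 1) * P * (k + 2) := by
          rw [pow_succ, ← hP]; ring
        rw [h3]
        nlinarith
      · rw [card_adv_succ]
        have h3 : b + Nat.card (Adv X K b d) ≤ 2 ^ (x + y + 1) := by
          calc b + Nat.card (Adv X K b d) ≤ 2 ^ x + 2 ^ y := Nat.add_le_add hb h2
            _ ≤ 2 ^ (x + y) + 2 ^ (x + y) := Nat.add_le_add
                (Nat.pow_le_pow_right (by norm_num) (by omega))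
                (Nat.pow_le_pow_right (by norm_num) (by omega))
            _ = 2 ^ (x + y + 1) := by rw [pow_succ]; ring
        calc Nat.card X * (b + Nat.card (Adv X K b d)) ^ Nat.card K
            ≤ 2 ^ x * (2 ^ (x + y + 1)) ^ Nat.card K :=
              Nat.mul_le_mul hX (Nat.pow_le_pow_left h3 _)
          _ = 2 ^ (x + Nat.card K * (x + y + 1)) := by
              rw [← pow_mul, ← pow_add]
              ring_nf
  obtain ⟨y, h1, h2⟩ := key d
  exact h2.trans (Nat.pow_le_pow_right (by norm_num) (by omega))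

/-- A tree has few leaves. -/
theorem exists_leaves [Finite K] (d : ℕ) (x : Adv X K b d) :
    ∃ F : Finset (Fin b), #F ≤ Nat.card K ^ d ∧ ∀ m, Leaf m d x → m ∈ F := by
  classical
  haveI := Fintype.ofFinite K
  induction d with
  | zero => exact ⟨∅, by simp, fun m h => h.elim⟩
  | succ d ih =>
    choose F hF1 hF2 using ih
    refine ⟨Finset.univ.biUnion fun i => Sum.elim (fun m' => {m'}) (fun y => F y) (x.2 i), ?_, ?_⟩
    · calc _ ≤ ∑ i : K, #(Sum.elim (fun m' => ({m'} : Finset (Fin b))) (fun y => F y) (x.2 i)) :=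
            Finset.card_biUnion_le
        _ ≤ ∑ _i : K, Nat.card K ^ d := by
            apply Finset.sum_le_sum
            intro i _
            have h1 : 1 ≤ Nat.card K ^ d := by
              haveI : Nonempty K := ⟨i⟩
              exact Nat.one_le_pow _ _ Nat.card_pos
            cases h2 : x.2 i with
            | inl m => simpa using h1
            | inr y => simpa using hF1 y
        _ = Nat.card K ^ (d + 1) := by
            rw [Finset.sum_const, smul_eq_mul, Finset.card_univ, ← Nat.card_eq_fintype_card,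
              pow_succ, mul_comm]
    · rintro m ⟨i, hi⟩
      rw [Finset.mem_biUnion]
      refine ⟨i, Finset.mem_univ i, ?_⟩
      cases h2 : x.2 i with
      | inl m' =>
        rw [h2] at hi
        simp only [Sum.elim_inl] at hi ⊢
        simp [hi]
      | inr y =>
        rw [h2] at hi
        exact hF2 y m hi

end card

section leafcoords

/-- The number of the block of a cell of the input. -/
def blkN (n w0 p : ℕ) : ℕ := min p (2 * n + 1) / w0

/-- The coordinates stored in few blocks are few. -/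
theorem card_coords_blocks {n D X Y w0 b : ℕ} (hD : 1 ≤ D) (hY : D * Y ≤ n) (hw : 1 ≤ w0)
    (F : Finset (Fin b)) :
    D * #(coords n D X Y {p | ∃ m ∈ F, (m : ℕ) = blkN n w0 p}) ≤ #F * (w0 + D) := by
  classical
  have h1 : coords n D X Y {p | ∃ m ∈ F, (m : ℕ) = blkN n w0 p} ⊆
      F.biUnion fun m => coords n D X Y {p | p ≤ 2 * n ∧ (m : ℕ) = blkN n w0 p} := by
    intro i hi
    rw [mem_coords] at hi
    obtain ⟨p, ⟨m, hm, hp⟩, hpi⟩ := hi
    rw [Finset.mem_biUnion]
    refine ⟨m, hm, mem_coords.2 ⟨p, ⟨?_, hp⟩, hpi⟩⟩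
    cases i with
    | inl i => have := (coord_inl hpi).1; omega
    | inr i => exact (coord_inr hpi).2.1
  have h2 : ∀ m ∈ F, D * #(coords n D X Y {p | p ≤ 2 * n ∧ (m : ℕ) = blkN n w0 p}) ≤ w0 + D := by
    intro m _
    apply card_coords_interval hD hY (lo := m * w0)
    rintro p ⟨h3, h4⟩
    unfold blkN at h4
    rw [min_eq_left (by omega)] at h4
    have h5 := Nat.div_add_mod p w0
    have h6 : p % w0 < w0 := Nat.mod_lt _ (by omega)
    rw [← h4] at h5
    have h7 : w0 * (m : ℕ) = m * w0 := Nat.mul_comm _ _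
    constructor
    · omega
    · omega
  calc D * #(coords n D X Y {p | ∃ m ∈ F, (m : ℕ) = blkN n w0 p})
      ≤ D * ∑ m ∈ F, #(coords n D X Y {p | p ≤ 2 * n ∧ (m : ℕ) = blkN n w0 p}) :=
        Nat.mul_le_mul_left _ ((Finset.card_le_card h1).trans Finset.card_biUnion_le)
    _ = ∑ m ∈ F, D * #(coords n D X Y {p | p ≤ 2 * n ∧ (m : ℕ) = blkN n w0 p}) :=
        Finset.mul_sum _ _ _
    _ ≤ ∑ _m ∈ F, (w0 + D) := Finset.sum_le_sum h2
    _ = #F * (w0 + D) := by rw [Finset.sum_const, smul_eq_mul]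

end leafcoords

section classcard

/-- A class of inputs on which few input bits determine many product bits is small. -/
theorem class_card {X Y μ : ℕ} (hXY : X + μ ≤ Y + 1) (R : Finset (Fin X ⊕ Fin Y))
    (hR : #R + 2 * μ ≤ X) (m : ℕ) (Cl : Finset (Inp X Y))
    (hK : ∀ ω ∈ Cl, ∃ K : Finset (Fin μ), m ≤ #K ∧ ∀ ω' ∈ Cl, (∀ i ∈ R, bit ω' i = bit ω i) →
      ∀ s ∈ K, conv μ ω'.1 ω'.2 s = conv μ ω.1 ω.2 s) :
    2 ^ m * #Cl ≤ 2 * 2 ^ (X + Y) := by
  classical
  -- classes of agreement on `R`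
  set f : Inp X Y → Finset (Inp X Y) := fun ω => {ω' | ∀ i ∈ R, bit ω' i = bit ω i} with hf
  have hmem : ∀ ω ω', f ω = f ω' → ∀ i ∈ R, bit ω' i = bit ω i := by
    intro ω ω' h
    have h1 : ω' ∈ f ω' := by simp [hf]
    rw [← h] at h1
    simpa [hf] using h1
  have hsplit : #Cl = ∑ c ∈ Cl.image f, #{ω ∈ Cl | f ω = c} :=
    Finset.card_eq_sum_card_fiberwise (fun ω hω => Finset.mem_image_of_mem _ hω)
  have hfib : ∀ c ∈ Cl.image f, 2 ^ m * #{ω ∈ Cl | f ω = c} ≤ 2 * #c := by
    intro c hc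
    obtain ⟨ω, hω, rfl⟩ := Finset.mem_image.1 hc
    obtain ⟨K, hK1, hK2⟩ := hK ω hω
    have h1 := cube_count hXY R ω hR K (conv μ ω.1 ω.2)
    have h2 : ({ω' ∈ Cl | f ω' = f ω} : Finset (Inp X Y)) ⊆
        ({ω' : Inp X Y | (∀ i ∈ R, bit ω' i = bit ω i) ∧
          ∀ s ∈ K, conv μ ω'.1 ω'.2 s = conv μ ω.1 ω.2 s} : Finset (Inp X Y)) := by
      intro ω' hω'
      rw [Finset.mem_filter] at hω'
      rw [Finset.mem_filter]
      have h3 := hmem ω ω' hω'.2.symm
      exact ⟨Finset.mem_univ _, h3, fun s hs => hK2 ω' hω'.1 h3 s hs⟩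
    calc 2 ^ m * #{ω' ∈ Cl | f ω' = f ω} ≤ 2 ^ #K * #{ω' : Inp X Y |
          (∀ i ∈ R, bit ω' i = bit ω i) ∧ ∀ s ∈ K, conv μ ω'.1 ω'.2 s = conv μ ω.1 ω.2 s} :=
          Nat.mul_le_mul (Nat.pow_le_pow_right (by norm_num) hK1) (Finset.card_le_card h2)
      _ ≤ _ := h1
  rw [hsplit, Finset.mul_sum]
  calc ∑ c ∈ Cl.image f, 2 ^ m * #{ω ∈ Cl | f ω = c} ≤ ∑ c ∈ Cl.image f, 2 * #c :=
        Finset.sum_le_sum hfib
    _ = 2 * ∑ c ∈ Cl.image f, #c := by rw [Finset.mul_sum]
    _ = 2 * #((Cl.image f).biUnion id) := by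
        rw [Finset.card_biUnion]
        · rfl
        · intro c hc c' hc' hne
          obtain ⟨ω, -, rfl⟩ := Finset.mem_image.1 hc
          obtain ⟨ω', -, rfl⟩ := Finset.mem_image.1 hc'
          rw [Function.onFun, Finset.disjoint_left]
          intro z hz hz'
          apply hne
          simp only [id, hf, Finset.mem_filter, Finset.mem_univ, true_and] at hz hz'
          ext z'
          simp only [hf, Finset.mem_filter, Finset.mem_univ, true_and]
          constructor
          · intro h i hi; rw [h i hi, ← hz i hi, hz' i hi]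
          · intro h i hi; rw [h i hi, ← hz' i hi, hz i hi]
    _ ≤ 2 * #(Finset.univ : Finset (Inp X Y)) :=
        Nat.mul_le_mul_left _ (Finset.card_le_card (Finset.subset_univ _))
    _ = 2 * 2 ^ (X + Y) := by
        rw [Finset.card_univ, Fintype.card_prod]
        simp only [Fintype.card_pi, Finset.prod_const, Finset.card_univ, Fintype.card_fin,
          ZMod.card]
        rw [← pow_add]

end classcard

end Vale.Agent.P338.R2.H313
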