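import Vale.Agent.P338.R2.H313.RevAgree
import Vale.Agent.P338.R2.H313.RevCard
import Vale.Agent.P338.R2.H968.Cuts

/-!
P338, reversals: the part of the output written in one era, and the union bound.
-/

namespace Vale.Agent.P338.R2.H313

open Vale.Agent.P338.R2.H898 Vale.Agent.P338.R2.H101 Finset

/-- The cell of the output tape containing the coefficient number `X - 1 + s`. -/
def pcell (n D X s : ℕ) : ℕ := 2 * n - 1 - D * (X - 1 + s)

theorem final_bit {A : MTM} (hA : Multiplies A) {n D X Y μ : ℕ} (hn1 : 1 ≤ n) (hD : 1 ≤ D)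
    (hX : X < 2 ^ D) (hDY : D * Y ≤ n) (hXY : X + μ ≤ Y + 1) (hμ : 1 ≤ μ) (ω : Inp X Y)
    (s : Fin μ) :
    (A.conf (word n D ω) (A.time (word n D ω))).tape A.out (pcell n D X s) =
      A.letter (bitL (decide (conv μ ω.1 ω.2 s = 1))) := by
  have hlx : (wx n D ω).length = n := by simp [wx]
  have hly : (wy n D ω).length = n := by simp [wy]
  obtain ⟨-, hout⟩ := hA n hn1 _ _ hlx hly
  have hvx : val (wx n D ω) = spread D ω.1 := by
    rw [wx, val_bin, Nat.mod_eq_of_lt]
    refine lt_of_lt_of_le (spread_lt hD ω.1) (Nat.pow_le_pow_right (by norm_num) ?_)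
    calc D * X ≤ D * Y := Nat.mul_le_mul_left _ (by omega)
      _ ≤ n := hDY
  have hvy : val (wy n D ω) = spread D ω.2 := by
    rw [wy, val_bin, Nat.mod_eq_of_lt]
    exact lt_of_lt_of_le (spread_lt hD ω.2) (Nat.pow_le_pow_right (by norm_num) hDY)
  have hcell : D * (X - 1 + s) < 2 * n := by
    have hs := s.2
    calc D * (X - 1 + s) ≤ D * Y := Nat.mul_le_mul_left _ (by omega)
      _ ≤ n := hDY
      _ < 2 * n := by omega
  have h1 := hout (pcell n D X s)
  have h2 : pcell n D X s < 2 * n := by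
    unfold pcell
    omega
  have h3 : ((bin (2 * n) (val (wx n D ω) * val (wy n D ω))).map bitL)[pcell n D X s]? =
      some (bitL (decide (conv μ ω.1 ω.2 s = 1))) := by
    rw [List.getElem?_map, getElem?_bin _ _ _ h2, hvx, hvy]
    have h4 : 2 * n - 1 - pcell n D X s = D * (X - 1 + s) := by
      unfold pcell
      omega
    rw [h4, prod_bit hD hX]
    rfl
  rw [h3] at h1
  exact h1

theorem conv_eq_of_letter {A : MTM} {a b : ZMod 2}
    (h : A.letter (bitL (decide (a = 1))) = A.letter (bitL (decide (b = 1)))) : a = b := by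
  have h1 : ∀ x y : Bool, bitL x = bitL y → x = y := by decide
  have h2 : ∀ x y : ZMod 2, decide (x = 1) = decide (y = 1) → x = y := by decide
  exact h2 _ _ (h1 _ _ (A.letter_inj h))

section hull

/-- The cells visited in `[z, T)`. -/
def VisS (f : ℕ → ℕ) (z T : ℕ) : Set ℕ := {q | ∃ t, z ≤ t ∧ t < T ∧ f t = q}

theorem visS_iff {f : ℕ → ℕ} (hf : ∀ t, f (t + 1) ≤ f t + 1 ∧ f t ≤ f (t + 1) + 1) {z T : ℕ}
    (hz : z < T) (q : ℕ) : q ∈ VisS f z T ↔ sInf (VisS f z T) ≤ q ∧ q ≤ sSup (VisS f z T) := by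
  have hne : (VisS f z T).Nonempty := ⟨f z, z, le_rfl, hz, rfl⟩
  have hfin : (VisS f z T).Finite := by
    apply (Set.finite_Iio T |>.image f).subset
    rintro q ⟨t, -, ht, rfl⟩
    exact ⟨t, ht, rfl⟩
  constructor
  · intro h
    exact ⟨Nat.sInf_le h, le_csSup hfin.bddAbove h⟩
  · rintro ⟨h1, h2⟩
    obtain ⟨x, hx1, hx2, hx3⟩ := Nat.sInf_mem hne
    obtain ⟨y, hy1, hy2, hy3⟩ := Nat.sSup_mem hne hfin.bddAbove
    obtain ⟨t, ht1, ht2, ht3⟩ := H968.ivt hf (c := z) (a := T) (p := q) hx1 hx2 hy1 hy2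
      (by rw [hx3]; exact h1) (by rw [hy3]; exact h2)
    exact ⟨t, ht1, ht2, ht3⟩

/-- The range of the cells visited in `[z, t)`. -/
noncomputable def hull (T : ℕ) (f : ℕ → ℕ) (z t : ℕ) : Bool × Fin (T + 1) × Fin (T + 1) :=
  (decide (z < t), Fin.ofNat (T + 1) (sInf (VisS f z t)), Fin.ofNat (T + 1) (sSup (VisS f z t)))

theorem visS_eq_of_hull {T : ℕ} {f f' : ℕ → ℕ} {z z' t t' : ℕ}
    (hf : ∀ t, f (t + 1) ≤ f t + 1 ∧ f t ≤ f (t + 1) + 1)
    (hf' : ∀ t, f' (t + 1) ≤ f' t + 1 ∧ f' t ≤ f' (t + 1) + 1)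
    (hfT : ∀ u, f u ≤ u) (hfT' : ∀ u, f' u ≤ u) (ht : t ≤ T) (ht' : t' ≤ T)
    (h : hull T f z t = hull T f' z' t') (q : ℕ) : q ∈ VisS f z t ↔ q ∈ VisS f' z' t' := by
  simp only [hull, Prod.mk.injEq, decide_eq_decide] at h
  obtain ⟨h1, h2, h3⟩ := h
  have hb : ∀ (g : ℕ → ℕ) (y u : ℕ), (∀ v, g v ≤ v) → u ≤ T → y < u →
      sInf (VisS g y u) ≤ T ∧ sSup (VisS g y u) ≤ T := by
    intro g y u hg hu hy
    have hne : (VisS g y u).Nonempty := ⟨g y, y, le_rfl, hy, rfl⟩
    have hle : ∀ q ∈ VisS g y u, q ≤ T := by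
      rintro q ⟨v, -, hv, rfl⟩
      exact (hg v).trans (by omega)
    exact ⟨hle _ (Nat.sInf_mem hne), csSup_le hne hle⟩
  by_cases hz : z < t
  · have hz' := h1.1 hz
    obtain ⟨a1, a2⟩ := hb f z t hfT ht hz
    obtain ⟨b1, b2⟩ := hb f' z' t' hfT' ht' hz'
    have h2' := congrArg Fin.val h2
    have h3' := congrArg Fin.val h3
    simp only [Fin.ofNat] at h2' h3'
    rw [Nat.mod_eq_of_lt (by omega), Nat.mod_eq_of_lt (by omega)] at h2' h3'
    rw [visS_iff hf hz, visS_iff hf' hz', h2', h3']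
  · have hz' : ¬ z' < t' := fun h4 => hz (h1.2 h4)
    constructor
    · rintro ⟨u, h4, h5, -⟩; omega
    · rintro ⟨u, h4, h5, -⟩; omega

end hull

section claims

variable {A : MTM} {Sh : A.Tape → Prop} {B : ℕ → ℕ}

attribute [local instance] fintypeLong

/-- The source of the final contents of the cell `q`. -/
noncomputable def fsrc (Sh : A.Tape → Prop) (B : ℕ → ℕ) (w : List Letter) (O : Long A Sh)
    (q : ℕ) : ℕ ⊕ ℕ :=
  src (hd A Sh w) (bk A Sh B) (era A Sh B w) O q (A.time w)

/-- The end of a source. -/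
noncomputable def send (Sh : A.Tape → Prop) (B : ℕ → ℕ) (w : List Letter) : ℕ ⊕ ℕ → ℕ :=
  Sum.elim (fun _ => 0) (fun e => e + elen A Sh B w e)

/-- The advice describing a source. -/
noncomputable def advice (Sh : A.Tape → Prop) (B : ℕ → ℕ) (T s b : ℕ) [NeZero b] (d : ℕ)
    (O : Long A Sh) (w : List Letter) (σ : ℕ ⊕ ℕ) :
    (Fin b ⊕ Adv (Rec A T s) (Long A Sh) b d) × (Bool × Fin (T + 1) × Fin (T + 1)) :=
  (Sum.map (Fin.ofNat b) (tree Sh B T s b w d) σ, hull T (hd A Sh w O) (send Sh B w σ) (A.time w))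

/-- An existing source. -/
def ValidS (Sh : A.Tape → Prop) (B : ℕ → ℕ) (w : List Letter) (d : ℕ) : ℕ ⊕ ℕ → Prop :=
  Sum.elim (fun _ => True) (fun e => e < A.time w ∧ era A Sh B w e = e ∧ ph A Sh w e < d)

theorem hd_step (w : List Letter) (i : Long A Sh) (t : ℕ) :
    hd A Sh w i (t + 1) ≤ hd A Sh w i t + 1 ∧ hd A Sh w i t ≤ hd A Sh w i (t + 1) + 1 := by
  have := head_conf_add_le (A := A) w t 1 i.1
  exact this

theorem hd_le (w : List Letter) (i : Long A Sh) (t : ℕ) : hd A Sh w i t ≤ t :=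
  head_conf_le w t i.1

theorem claim_same {w w' : List Letter} {T s b d : ℕ} [NeZero b] (hT : A.time w ≤ T)
    (hT' : A.time w' ≤ T) (hs : ∀ t i, Sh i → (A.conf w t).head i < s) (O : Long A Sh)
    {σ σ' : ℕ ⊕ ℕ} (hv : ValidS Sh B w d σ) (hv' : ValidS Sh B w' d σ')
    (hadv : advice Sh B T s b d O w σ = advice Sh B T s b d O w' σ')
    (hleaf : ∀ p, Sum.elim (fun m => m = Fin.ofNat b (B p)) (fun y => Leaf (Fin.ofNat b (B p)) d y)
      (advice Sh B T s b d O w σ).1 → w[p]? = w'[p]?)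
    (q : ℕ) (hq : fsrc Sh B w O q = σ) :
    (A.conf w (A.time w)).tape O.1 q = (A.conf w' (A.time w')).tape O.1 q := by
  simp only [advice, Prod.mk.injEq] at hadv hleaf
  obtain ⟨h1, h2⟩ := hadv
  have hvis := visS_eq_of_hull (hd_step w O) (hd_step w' O) (hd_le w O) (hd_le w' O) hT hT' h2
  by_cases hex : ∃ t < A.time w, hd A Sh w O t = q
  · -- the cell is visited
    have hσ : σ = Sum.inr (era A Sh B w (lastV (hd A Sh w) O q (A.time w))) := by
      rw [← hq, fsrc, src, if_pos hex]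
    obtain ⟨l1, l2⟩ := lastV_spec hex
    set e := era A Sh B w (lastV (hd A Sh w) O q (A.time w)) with he
    subst hσ
    cases σ' with
    | inl m => simp at h1
    | inr e' =>
      simp only [ValidS, Sum.elim_inr] at hv hv'
      simp only [Sum.map_inr, Sum.inr.injEq] at h1
      obtain ⟨v1, v2, v3⟩ := hv
      obtain ⟨v1', v2', v3'⟩ := hv'
      obtain ⟨m1, m2⟩ := tree_agree hT hT' hs d e e' v1 v1' v2 v2' v3 v3' h1
        (fun p hp => hleaf p (by simpa using hp))
      simp only [send, Sum.elim_inr] at hvis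
      have hle : e ≤ lastV (hd A Sh w) O q (A.time w) := by rw [he]; exact era_le _
      obtain ⟨r, hr⟩ := Nat.exists_eq_add_of_le hle
      have hrl : r < elen A Sh B w e := by
        rw [lt_elen_iff v2, ← hr]
        exact ⟨by omega, he.symm⟩
      -- a visit in the second run
      have g2 := (lt_elen_iff (A := A) (Sh := Sh) (B := B) (w := w') v2' r).1 (m1 ▸ hrl)
      have g3 : hd A Sh w' O (e' + r) = q := by
        have g4 := (m2 r hrl).head
        show (A.conf w' (e' + r)).head O.1 = q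
        rw [← g4, ← hr]
        exact l2
      have hex' : ∃ t < A.time w', hd A Sh w' O t = q := ⟨e' + r, g2.1, g3⟩
      obtain ⟨l1', l2'⟩ := lastV_spec hex'
      have g5 : e' + r ≤ lastV (hd A Sh w') O q (A.time w') := le_lastV g2.1 g3
      have g6 : lastV (hd A Sh w') O q (A.time w') < e' + elen A Sh B w' e' := by
        by_contra hcon
        push Not at hcon
        have g7 : q ∈ VisS (hd A Sh w' O) (e' + elen A Sh B w' e') (A.time w') :=
          ⟨_, hcon, l1', l2'⟩
        rw [← hvis] at g7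
        obtain ⟨t, t1, t2, t3⟩ := g7
        have := le_lastV (h := hd A Sh w) (i := O) t2 t3
        omega
      have g8 : era A Sh B w' (lastV (hd A Sh w') O q (A.time w')) = e' := by
        obtain ⟨r', hr'⟩ := Nat.exists_eq_add_of_le (show e' ≤ lastV (hd A Sh w') O q (A.time w')
          by omega)
        rw [hr']
        exact ((lt_elen_iff v2' r').1 (by omega)).2
      obtain ⟨x, hx, hx1, hx2⟩ := last_visits (s := s) hex hex' he.symm g8 le_rfl le_rfl
        (fun r hr => ((lt_elen_iff v2 r).1 hr).1) (fun r hr => ((lt_elen_iff v2' r).1 hr).1) m1 m2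
      -- the final contents
      have c1 : (A.conf w (A.time w)).tape O.1 q =
          (A.conf w (lastV (hd A Sh w) O q (A.time w) + 1)).tape O.1 q := by
        refine tape_const (· = q) w (by omega) (fun r h3 h4 h5 => ?_) rfl
        have := le_lastV (h := hd A Sh w) (i := O) h4 h5
        omega
      have c2 : (A.conf w' (A.time w')).tape O.1 q =
          (A.conf w' (lastV (hd A Sh w') O q (A.time w') + 1)).tape O.1 q := by
        refine tape_const (· = q) w' (by omega) (fun r h3 h4 h5 => ?_) rfl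
        have := le_lastV (h := hd A Sh w') (i := O) h4 h5
        omega
      rw [c1, c2]
      have n1 : (A.conf w (e + x)).head O.1 = q := by rw [← hx1]; exact l2
      have n2 : (A.conf w' (e' + x)).head O.1 = q := by rw [← hx2]; exact l2'
      rw [hx1, hx2, conf_succ, conf_succ]
      have := (m2 x hx).written (hs (e + x)) O.1 O.2
      rw [n1, n2] at this
      exact this
  · -- the cell is not visited
    have hσ : σ = Sum.inl (bk A Sh B O q) := by
      rw [← hq, fsrc, src, if_neg hex]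
    subst hσ
    cases σ' with
    | inr e => simp at h1
    | inl m =>
      simp only [send, Sum.elim_inl] at hvis
      have hex' : ¬ ∃ t < A.time w', hd A Sh w' O t = q := by
        rintro ⟨t, t1, t2⟩
        have g7 : q ∈ VisS (hd A Sh w' O) 0 (A.time w') := ⟨t, Nat.zero_le _, t1, t2⟩
        rw [← hvis] at g7
        obtain ⟨u, -, u1, u2⟩ := g7
        exact hex ⟨u, u1, u2⟩
      have c1 : (A.conf w (A.time w)).tape O.1 q = (A.init w).tape O.1 q :=
        tape_const (· = q) w (Nat.zero_le _) (fun r _ h4 h5 => hex ⟨r, h4, h5⟩) rfl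
      have c2 : (A.conf w' (A.time w')).tape O.1 q = (A.init w').tape O.1 q :=
        tape_const (· = q) w' (Nat.zero_le _) (fun r _ h4 h5 => hex' ⟨r, h4, h5⟩) rfl
      rw [c1, c2]
      by_cases hOi : O.1 = A.inp
      · apply init_tape_inp
        apply hleaf
        simp only [bk, if_pos hOi, Sum.map_inl, Sum.elim_inl]
      · exact init_tape_of_ne w w' hOi q

end claims

end Vale.Agent.P338.R2.H313
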