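import Vale.Agent.P338.R2.H313.RevMain

/-!
P338, reversals: the lower bounds for the number of head reversals.
-/

namespace Vale.Agent.P338.R2.H313

open Vale.Agent.P338.R2.H898 Vale.Agent.P338.R2.H101 Finset

theorem rev_ineq {A : MTM} (hA : Multiplies A) : ∃ C₁ : ℕ, 2 ≤ C₁ ∧ ∀ n : ℕ, 1000 ≤ n →
    ∀ s : ℕ, n ≤ C₁ ^ (revNum A s n + 1) *
      ((s + Nat.log 2 (mulTime A n + 2)) * (Nat.log 2 n + 1)) := by
  have := A.finTape
  set K := Nat.card A.Tape with hK
  have hK1 : 1 ≤ K := by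
    have : Nonempty A.Tape := ⟨A.out⟩
    exact Nat.card_pos
  set q := Nat.card A.State with hq
  set g := Nat.card A.Sym with hg
  have hq2 : Nat.card A.State ≤ 2 ^ q := Nat.lt_two_pow_self.le
  have hg2 : Nat.card A.Sym ≤ 2 ^ g := Nat.lt_two_pow_self.le
  obtain ⟨C₀, hC₀, hmain⟩ := H968.rev_int (K + 1) (q + 2 * K + 2 * g * K + 8 + 60) K
  refine ⟨C₀ + 10 * K, by omega, fun n hn s => ?_⟩
  set r := revNum A s n with hr
  set T := mulTime A n with hT
  set D := Nat.log 2 n + 1 with hD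
  set μ := n / (5 * D) with hμ
  obtain ⟨p1, p2, -, -, p5, -⟩ := H968.params hn D μ (D * μ / 2) hD hμ rfl
  set P := K ^ (r + 1) with hP
  have hP1 : 1 ≤ P := Nat.one_le_pow _ _ hK1
  set lam := Nat.log 2 (T + 2) with hlam
  have hlam1 : 1 ≤ lam := by
    calc 1 = Nat.log 2 2 := by norm_num
      _ ≤ lam := Nat.log_mono_right (by omega)
  have hSD : 1 ≤ s + lam := by omega
  have hmonoC : ∀ C : ℕ, C ≤ C₀ + 10 * K → C ^ (r + 1) * ((s + lam) * D) ≤
      (C₀ + 10 * K) ^ (r + 1) * ((s + lam) * D) := fun C hC =>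
    Nat.mul_le_mul_right _ (Nat.pow_le_pow_left hC _)
  have hn1 : 1 ≤ n := by omega
  have hnT : n ≤ T := by
    have hx : (List.replicate n false).length = n := by simp
    exact (le_time hA hn1 hx hx).trans (time_le_mulTime' A hx hx)
  by_cases hO : Confined A s n A.out
  · -- the output tape is short
    have h1 := le_of_confined_out hA hn1 hO
    have h2 : 1 ≤ (C₀ + 10 * K) ^ (r + 1) := Nat.one_le_pow _ _ (by omega)
    calc n ≤ 1 * ((s + lam) * 1) := by omega
      _ ≤ (C₀ + 10 * K) ^ (r + 1) * ((s + lam) * D) :=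
        Nat.mul_le_mul h2 (Nat.mul_le_mul_left _ p2)
  · by_cases hPμ : P ≤ μ
    · -- the main case
      refine le_trans ?_ (hmonoC C₀ (by omega))
      set w0 := D * (μ / P) with hw0
      have hdiv1 : 1 ≤ μ / P := (Nat.one_le_div_iff (by omega)).2 hPμ
      have hw0pos : 1 ≤ w0 := Nat.mul_pos (by omega) hdiv1
      set b0 := (2 * n + 1) / w0 with hb0
      have hdivP : μ / P * P ≤ μ := Nat.div_mul_le_self μ P
      have hdivP2 : μ < (μ / P + 1) * P := by
        have := Nat.lt_succ_iff.2 (le_refl (μ / P))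
        rwa [Nat.div_lt_iff_lt_mul (by omega)] at this
      have hdivP3 : P ≤ μ / P * P := Nat.le_mul_of_pos_left _ hdiv1
      have hdivP4 : μ ≤ 2 * (μ / P * P) := by
        have : (μ / P + 1) * P = μ / P * P + P := by ring
        omega
      have hb0le : b0 ≤ 60 * P := by
        rw [hb0]
        apply Nat.le_of_lt_succ
        rw [Nat.div_lt_iff_lt_mul (by omega)]
        have h1 : D * μ ≤ D * (2 * (μ / P * P)) := Nat.mul_le_mul_left _ hdivP4
        have h2 : n ≤ 10 * (D * μ) := by rw [← Nat.mul_assoc]; exact p5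
        have h3 : (60 * P).succ * w0 = 30 * (D * (2 * (μ / P * P))) + w0 := by
          rw [hw0, Nat.succ_eq_add_one]
          ring
        rw [h3]
        have key : ∀ Z U : ℕ, U ≤ Z → n ≤ 10 * U → 2 * n + 1 < 30 * Z + w0 := by
          intro Z U h1 h2
          omega
        exact key _ _ h1 h2
      have hL : T + 1 ≤ 2 ^ (lam + 1) := by
        have : T + 2 < 2 ^ (lam + 1) := Nat.lt_pow_succ_log_self (b := 2) (by norm_num) (T + 2)
        omega
      set x := q + ((lam + 1) * K + (g * s * K + g * K)) + (lam + 1) with hx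
      have hrec := card_rec_le A (T := T) (s := s) hq2 hg2 hL
      have hbx : b0 + 1 ≤ 2 ^ x := by
        have h1 : b0 ≤ 2 * n + 1 := Nat.div_le_self _ _
        have h2 : lam + 1 ≤ (lam + 1) * K := Nat.le_mul_of_pos_right _ (by omega)
        calc b0 + 1 ≤ 2 * (T + 1) := by omega
          _ ≤ 2 * 2 ^ (lam + 1) := Nat.mul_le_mul_left _ hL
          _ = 2 ^ (lam + 1 + 1) := by rw [pow_succ 2 (lam + 1)]; ring
          _ ≤ 2 ^ x := Nat.pow_le_pow_right (by norm_num) (by omega)
      have hDY : D * (5 * μ) ≤ n := by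
        have := Nat.mul_div_le n (5 * D)
        rw [← hμ] at this
        calc D * (5 * μ) = 5 * D * μ := by ring
          _ ≤ n := this
      have hμ1 : 1 ≤ μ := by omega
      have hX : 4 * μ < 2 ^ D := by
        have h1 : 5 * μ ≤ D * (5 * μ) := Nat.le_mul_of_pos_left _ (by omega)
        omega
      have hRR : K ^ (r + 1) * (w0 + D) ≤ 2 * μ * D := by
        rw [← hP]
        calc P * (w0 + D) = D * (μ / P * P) + P * D := by rw [hw0]; ring
          _ ≤ D * μ + μ * D := Nat.add_le_add (Nat.mul_le_mul_left _ hdivP)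
              (Nat.mul_le_mul_right _ hPμ)
          _ = 2 * μ * D := by ring
      have hparam := rev_param hA hn1 hO p2 hμ1 hX hDY hw0pos hb0 hr hT hL hRR hrec hbx
      rw [← hK] at hparam
      refine hmain n r s T b0 ((x + 1) * (K + 2) ^ (r + 2) + 2 * (lam + 1) + 1) D μ p2 hμ ?_ ?_ ?_
      · calc b0 ≤ 60 * P := hb0le
          _ ≤ (q + 2 * K + 2 * g * K + 8 + 60) * K ^ (r + 1) :=
            Nat.mul_le_mul (by omega) le_rfl
      · set V := (K + 2) ^ (r + 2) with hV
        have hV1 : 1 ≤ V := Nat.one_le_pow _ _ (by omega)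
        rw [← hlam]
        set Y := s + lam with hY
        have e1 : x + 1 ≤ (q + 2 * K + 2 * g * K + 3) * Y := by
          have a1 : q ≤ q * Y := Nat.le_mul_of_pos_right _ hSD
          have a2 : (lam + 1) * K ≤ 2 * K * Y := by
            calc (lam + 1) * K ≤ (2 * Y) * K := Nat.mul_le_mul_right _ (by omega)
              _ = 2 * K * Y := by ring
          have a3 : g * s * K ≤ g * K * Y := by
            calc g * s * K ≤ g * Y * K := by
                  apply Nat.mul_le_mul_right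
                  exact Nat.mul_le_mul_left _ (by omega)
              _ = g * K * Y := by ring
          have a4 : g * K ≤ g * K * Y := Nat.le_mul_of_pos_right _ hSD
          have a5 : (q + 2 * K + 2 * g * K + 3) * Y =
              q * Y + 2 * K * Y + g * K * Y + g * K * Y + 3 * Y := by ring
          omega
        have e2 : (x + 1) * V ≤ (q + 2 * K + 2 * g * K + 3) * Y * V := Nat.mul_le_mul_right _ e1
        have e3 : 2 * (lam + 1) + 1 ≤ 5 * Y * V := by
          calc 2 * (lam + 1) + 1 ≤ 5 * Y * 1 := by omega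
            _ ≤ 5 * Y * V := Nat.mul_le_mul_left _ hV1
        have e4 : V * ((q + 2 * K + 2 * g * K + 8 + 60) * Y) =
            (q + 2 * K + 2 * g * K + 3) * Y * V + 5 * Y * V + 60 * Y * V := by ring
        rw [e4]
        omega
      · calc _ ≤ (x + 1) * (K + 2) ^ (r + 2) + 2 * (lam + 1) + 3 := hparam
          _ = _ := by ring
    · -- many reversals
      push Not at hPμ
      refine le_trans ?_ (hmonoC (10 * K) (by omega))
      have h1 : 10 * D * μ ≤ 10 * D * P := Nat.mul_le_mul_left _ hPμ.le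
      have h2 : 10 * P ≤ (10 * K) ^ (r + 1) := by
        rw [Nat.mul_pow]
        exact Nat.mul_le_mul_right _ (Nat.le_self_pow (by omega) 10)
      calc n ≤ 10 * D * P := p5.trans h1
        _ = 10 * P * (1 * D) := by ring
        _ ≤ (10 * K) ^ (r + 1) * ((s + lam) * D) :=
          Nat.mul_le_mul h2 (Nat.mul_le_mul_right _ hSD)

theorem rev_final {A : MTM} (hA : Multiplies A) :
    (∃ C : ℕ, 2 ≤ C ∧ ∀ n : ℕ, 1000 ≤ n → ∀ s : ℕ, n ≤ C ^ (revNum A s n + 1) *
      ((s + Nat.log 2 (mulTime A n + 2)) * (Nat.log 2 n + 1))) ∧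
    (∀ ε : ℝ, 0 < ε → ∃ c : ℝ, 0 < c ∧ ∃ N : ℕ, ∀ n : ℕ, N ≤ n → ∀ s : ℕ,
      (s : ℝ) ≤ (n : ℝ) ^ (1 - ε) →
      (Nat.log 2 (mulTime A n + 2) : ℝ) ≤ (n : ℝ) ^ (1 - ε) →
      c * Real.log n ≤ revNum A s n) ∧
    (∀ ε K : ℝ, 0 < ε → 0 < K → ∃ c : ℝ, 0 < c ∧ ∃ N : ℕ, ∀ n : ℕ, N ≤ n → ∀ s : ℕ,
      (s : ℝ) ≤ (n : ℝ) ^ (1 - ε) → (revNum A s n : ℝ) ≤ K * (mulTime A n / n) →
      c * (n * Real.log n) ≤ mulTime A n) := by
  obtain ⟨C, hC, h⟩ := rev_ineq hA
  refine ⟨⟨C, hC, h⟩, fun ε hε => ?_, fun ε K hε hK => ?_⟩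
  · obtain ⟨c, hc, N, hN⟩ := H968.rev_log C hC ε hε
    refine ⟨c, hc, max N 1000, fun n hn s hs hT => ?_⟩
    exact hN n ((le_max_left _ _).trans hn) _ s _ (h n ((le_max_right _ _).trans hn) s) hs hT
  · obtain ⟨c, hc, N, hN⟩ := H968.rev_time C hC ε hε K hK
    refine ⟨c, hc, max N 1000, fun n hn s hs hr => ?_⟩
    have hn2 : 1000 ≤ n := (le_max_right _ _).trans hn
    have hnT : n ≤ mulTime A n := by
      have hx : (List.replicate n false).length = n := by simp
      exact (le_time hA (by omega) hx hx).trans (time_le_mulTime' A hx hx)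
    exact hN n ((le_max_left _ _).trans hn) _ s _ hnT (h n hn2 s) hs hr

end Vale.Agent.P338.R2.H313
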