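import Vale.Agent.P338.R2.H313.TurnDef

/-!
P338, reversals: the turns of a head and the phases of a run.
-/

namespace Vale.Agent.P338.R2.H313

open Finset

open Classical in
/-- The number of turns before the time `t`. -/
noncomputable def nturns (f : ℕ → ℕ) (t : ℕ) : ℕ := #{u ∈ range t | Turn f u}

theorem nturns_mono (f : ℕ → ℕ) : Monotone (nturns f) := by
  classical
  intro a b hab
  unfold nturns
  apply Finset.card_le_card
  intro u hu
  rw [Finset.mem_filter, Finset.mem_range] at hu ⊢
  exact ⟨by omega, hu.2⟩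

theorem nturns_succ_of_turn {f : ℕ → ℕ} {t : ℕ} (h : Turn f t) :
    nturns f (t + 1) = nturns f t + 1 := by
  classical
  unfold nturns
  rw [Finset.range_add_one, Finset.filter_insert, if_pos h, Finset.card_insert_of_notMem]
  simp

/-- The last move before `u`. -/
theorem exists_last_move {f : ℕ → ℕ} {t u : ℕ} (htu : t < u) (h : f (t + 1) ≠ f t) :
    ∃ s, t ≤ s ∧ s < u ∧ f (s + 1) ≠ f s ∧ ∀ v, s < v → v < u → f (v + 1) = f v := by
  classical
  set s := Nat.findGreatest (fun s => s < u ∧ f (s + 1) ≠ f s) u with hs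
  have hs1 : s < u ∧ f (s + 1) ≠ f s :=
    Nat.findGreatest_spec (P := fun s => s < u ∧ f (s + 1) ≠ f s) htu.le ⟨htu, h⟩
  refine ⟨s, Nat.le_findGreatest htu.le ⟨htu, h⟩, hs1.1, hs1.2, fun v h2 h3 => ?_⟩
  by_contra h4
  have := Nat.le_findGreatest (P := fun s => s < u ∧ f (s + 1) ≠ f s) h3.le ⟨h3, h4⟩
  omega

/-- Without turns, after a move up there are no moves down. -/
theorem no_turn_up {f : ℕ → ℕ} {t : ℕ} (h1 : f t < f (t + 1)) (u : ℕ)
    (h : ∀ v, t < v → v ≤ u → ¬ Turn f v) : ∀ v, t ≤ v → v ≤ u → f v ≤ f (v + 1) := by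
  induction u with
  | zero =>
    intro v h2 h3
    have : v = t := by omega
    subst this
    exact h1.le
  | succ u ih =>
    intro v h2 h3
    rcases Nat.lt_or_ge v (u + 1) with h4 | h4
    · exact ih (fun v h5 h6 => h v h5 (by omega)) v h2 (by omega)
    · have h5 : v = u + 1 := by omega
      subst h5
      rcases h2.lt_or_eq with h6 | h6
      · by_contra hcon
        push Not at hcon
        obtain ⟨s, a1, a2, a3, a4⟩ := exists_last_move h6 h1.ne'
        have a5 := ih (fun v h5 h6 => h v h5 (by omega)) s a1 (by omega)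
        exact h (u + 1) h6 le_rfl ⟨s, a2, a4, Or.inl ⟨by omega, hcon⟩⟩
      · rw [← h6]
        exact h1.le

/-- Without turns, after a move down there are no moves up. -/
theorem no_turn_down {f : ℕ → ℕ} {t : ℕ} (h1 : f (t + 1) < f t) (u : ℕ)
    (h : ∀ v, t < v → v ≤ u → ¬ Turn f v) : ∀ v, t ≤ v → v ≤ u → f (v + 1) ≤ f v := by
  induction u with
  | zero =>
    intro v h2 h3
    have : v = t := by omega
    subst this
    exact h1.le
  | succ u ih =>
    intro v h2 h3
    rcases Nat.lt_or_ge v (u + 1) with h4 | h4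
    · exact ih (fun v h5 h6 => h v h5 (by omega)) v h2 (by omega)
    · have h5 : v = u + 1 := by omega
      subst h5
      rcases h2.lt_or_eq with h6 | h6
      · by_contra hcon
        push Not at hcon
        obtain ⟨s, a1, a2, a3, a4⟩ := exists_last_move h6 h1.ne
        have a5 := ih (fun v h5 h6 => h v h5 (by omega)) s a1 (by omega)
        exact h (u + 1) h6 le_rfl ⟨s, a2, a4, Or.inr ⟨by omega, hcon⟩⟩
      · rw [← h6]
        exact h1.le

/-- Without turns, the head is monotone. -/
theorem no_turn {f : ℕ → ℕ} {x u : ℕ} (h : ∀ v, x ≤ v → v ≤ u → ¬ Turn f v) :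
    (∀ v, x ≤ v → v ≤ u → f v ≤ f (v + 1)) ∨ (∀ v, x ≤ v → v ≤ u → f (v + 1) ≤ f v) := by
  classical
  by_cases hex : ∃ t, x ≤ t ∧ t ≤ u ∧ f (t + 1) ≠ f t
  · obtain ⟨h1, h2, h3⟩ := Nat.find_spec hex
    set t := Nat.find hex with ht
    have h4 : ∀ v, x ≤ v → v < t → f (v + 1) = f v := by
      intro v h5 h6
      have h7 := Nat.find_min hex h6
      by_contra h8
      exact h7 ⟨h5, by omega, h8⟩
    rcases lt_or_gt_of_ne h3 with h5 | h5
    · right
      intro v h6 h7
      rcases Nat.lt_or_ge v t with h8 | h8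
      · exact (h4 v h6 h8).le
      · exact no_turn_down h5 u (fun v h9 h10 => h v (by omega) h10) v h8 h7
    · left
      intro v h6 h7
      rcases Nat.lt_or_ge v t with h8 | h8
      · exact (h4 v h6 h8).ge
      · exact no_turn_up h5 u (fun v h9 h10 => h v (by omega) h10) v h8 h7
  · push Not at hex
    exact Or.inl fun v h1 h2 => (hex v h1 h2).ge

theorem mono_of_steps {f : ℕ → ℕ} {x u : ℕ} (h : ∀ v, x ≤ v → v ≤ u → f v ≤ f (v + 1)) {y z : ℕ}
    (hxy : x ≤ y) (hyz : y ≤ z) (hzu : z ≤ u + 1) : f y ≤ f z := by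
  induction z, hyz using Nat.le_induction with
  | base => exact le_rfl
  | succ z hyz ih => exact (ih (by omega)).trans (h z (by omega) (by omega))

theorem anti_of_steps {f : ℕ → ℕ} {x u : ℕ} (h : ∀ v, x ≤ v → v ≤ u → f (v + 1) ≤ f v) {y z : ℕ}
    (hxy : x ≤ y) (hyz : y ≤ z) (hzu : z ≤ u + 1) : f z ≤ f y := by
  induction z, hyz using Nat.le_induction with
  | base => exact le_rfl
  | succ z hyz ih => exact (h z (by omega) (by omega)).trans (ih (by omega))

/-- Without turns, a cell entered by a move has not been visited before. -/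
theorem new_cell {f : ℕ → ℕ} {x u : ℕ} (h : ∀ v, x ≤ v → v ≤ u → ¬ Turn f v)
    (hmv : f (u + 1) ≠ f u) {y : ℕ} (h1 : x ≤ y) (h2 : y ≤ u) : f y ≠ f (u + 1) := by
  rcases no_turn h with h3 | h3
  · have h4 := mono_of_steps h3 h1 h2 (by omega)
    have h5 := h3 u (by omega) le_rfl
    omega
  · have h4 := anti_of_steps h3 h1 h2 (by omega)
    have h5 := h3 u (by omega) le_rfl
    omega

/-- Without turns, a pair of neighbouring cells is crossed at most once. -/
theorem cross_once {f : ℕ → ℕ} {t u : ℕ} (htu : t < u) (h : ∀ v, t ≤ v → v ≤ u → ¬ Turn f v)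
    (h1 : f t ≠ f (t + 1)) (h2 : f u ≠ f (u + 1)) :
    min (f t) (f (t + 1)) ≠ min (f u) (f (u + 1)) := by
  rcases no_turn h with h3 | h3
  · have h4 := mono_of_steps h3 (show t ≤ t + 1 by omega) (show t + 1 ≤ u by omega) (by omega)
    have h5 := h3 u (by omega) le_rfl
    have h6 := h3 t le_rfl (by omega)
    omega
  · have h4 := anti_of_steps h3 (show t ≤ t + 1 by omega) (show t + 1 ≤ u by omega) (by omega)
    have h5 := h3 u (by omega) le_rfl
    have h6 := h3 t le_rfl (by omega)
    omega

section phase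

variable {ι : Type} [Fintype ι] (h : ι → ℕ → ℕ)

/-- The number of turns of all heads before the time `t`. -/
noncomputable def phase (t : ℕ) : ℕ := ∑ i, nturns (h i) t

variable {h}

theorem phase_mono : Monotone (phase h) := fun _ _ hab =>
  Finset.sum_le_sum fun i _ => nturns_mono (h i) hab

/-- Inside a phase there are no turns. -/
theorem not_turn_of_phase {x u : ℕ} (hxu : phase h (u + 1) = phase h x) {v : ℕ} (h1 : x ≤ v)
    (h2 : v ≤ u) (i : ι) : ¬ Turn (h i) v := by
  intro h3
  have h4 : phase h x ≤ phase h v := phase_mono h1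
  have h5 : phase h (v + 1) ≤ phase h (u + 1) := phase_mono (by omega)
  have h6 : phase h v < phase h (v + 1) := by
    apply Finset.sum_lt_sum (fun j _ => nturns_mono (h j) (Nat.le_succ v))
    refine ⟨i, Finset.mem_univ i, ?_⟩
    rw [nturns_succ_of_turn h3]
    omega
  omega

theorem phase_cross (i : ι) (t u : ℕ) (h1 : phase h (t + 1) = phase h t)
    (h2 : phase h (u + 1) = phase h u) (h3 : phase h t = phase h u)
    (h4 : h i t ≠ h i (t + 1)) (h5 : h i u ≠ h i (u + 1))
    (h6 : min (h i t) (h i (t + 1)) = min (h i u) (h i (u + 1))) : t = u := by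
  rcases lt_trichotomy t u with h7 | h7 | h7
  · exact absurd h6 (cross_once h7 (fun v h8 h9 => not_turn_of_phase (h2.trans h3.symm) h8 h9 i)
      h4 h5)
  · exact h7
  · exact absurd h6.symm (cross_once h7 (fun v h8 h9 => not_turn_of_phase (h1.trans h3) h8 h9 i)
      h5 h4)

/-- Inside a phase, a cell entered by a move has not been visited before. -/
theorem phase_new (i : ι) {x u : ℕ} (h1 : phase h (u + 1) = phase h x)
    (hmv : h i (u + 1) ≠ h i u) {y : ℕ} (h2 : x ≤ y) (h3 : y ≤ u) : h i y ≠ h i (u + 1) :=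
  new_cell (fun v h4 h5 => not_turn_of_phase h1 h4 h5 i) hmv h2 h3

end phase

end Vale.Agent.P338.R2.H313
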