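import Vale.Agent.P338.R2.H313.Run
import Vale.Agent.P338.R2.H313.Eras
import Vale.Agent.P338.R2.H313.Turn

/-!
P338, reversals: eras of two runs with the same history tree agree.
-/

namespace Vale.Agent.P338.R2.H313

open Vale.Agent.P338.R2.H898 Finset

/-- Two configurations agree locally: same state, same head positions, same contents of the short
tapes, same symbols under the heads of the other tapes. -/
structure Agr (A : MTM) (Sh : A.Tape → Prop) (s : ℕ) (c c' : A.Conf) : Prop where
  state : c.state = c'.state
  head : c.head = c'.head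
  short : ∀ i, Sh i → ∀ p < s, c.tape i p = c'.tape i p
  sym : ∀ i, ¬ Sh i → c.tape i (c.head i) = c'.tape i (c'.head i)

section agr

variable {A : MTM} {Sh : A.Tape → Prop} {s : ℕ}

theorem Agr.act_eq {c c' : A.Conf} (h : Agr A Sh s c c') (hs : ∀ i, Sh i → c.head i < s) :
    A.act c = A.act c' := by
  unfold MTM.act
  rw [h.state]
  congr 1
  funext i
  by_cases hsh : Sh i
  · rw [h.short i hsh _ (hs i hsh), h.head]
  · exact h.sym i hsh

/-- The symbol left in the current cell of a tape is the same. -/
theorem Agr.written {c c' : A.Conf} (h : Agr A Sh s c c') (hs : ∀ i, Sh i → c.head i < s)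
    (i : A.Tape) (hi : ¬ Sh i) :
    (A.next c).tape i (c.head i) = (A.next c').tape i (c'.head i) := by
  have ha := h.act_eq hs
  cases h1 : A.act c with
  | none =>
    rw [next_of_halted h1, next_of_halted (c := c') (show A.Halted _ from ha.symm.trans h1)]
    exact h.sym i hi
  | some x =>
    rw [next_of_act (q := x.1) (a := x.2) h1, next_of_act (q := x.1) (a := x.2) (ha.symm.trans h1)]
    simp

theorem Agr.head_next {c c' : A.Conf} (h : Agr A Sh s c c') (hs : ∀ i, Sh i → c.head i < s) :
    (A.next c).head = (A.next c').head := by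
  have ha := h.act_eq hs
  cases h1 : A.act c with
  | none =>
    rw [next_of_halted h1, next_of_halted (c := c') (show A.Halted _ from ha.symm.trans h1)]
    exact h.head
  | some x =>
    rw [next_of_act (q := x.1) (a := x.2) h1, next_of_act (q := x.1) (a := x.2) (ha.symm.trans h1)]
    simp only
    rw [h.head]

theorem Agr.state_next {c c' : A.Conf} (h : Agr A Sh s c c') (hs : ∀ i, Sh i → c.head i < s) :
    (A.next c).state = (A.next c').state := by
  have ha := h.act_eq hs
  cases h1 : A.act c with
  | none =>
    rw [next_of_halted h1, next_of_halted (c := c') (show A.Halted _ from ha.symm.trans h1)]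
    exact h.state
  | some x =>
    rw [next_of_act (q := x.1) (a := x.2) h1, next_of_act (q := x.1) (a := x.2) (ha.symm.trans h1)]

theorem Agr.short_next {c c' : A.Conf} (h : Agr A Sh s c c') (hs : ∀ i, Sh i → c.head i < s)
    (i : A.Tape) (hi : Sh i) (p : ℕ) (hp : p < s) :
    (A.next c).tape i p = (A.next c').tape i p := by
  have ha := h.act_eq hs
  cases h1 : A.act c with
  | none =>
    rw [next_of_halted h1, next_of_halted (c := c') (show A.Halted _ from ha.symm.trans h1)]
    exact h.short i hi p hp
  | some x =>
    rw [next_of_act (q := x.1) (a := x.2) h1, next_of_act (q := x.1) (a := x.2) (ha.symm.trans h1)]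
    simp only
    rw [← h.head]
    by_cases hpp : p = c.head i
    · subst hpp; simp
    · rw [Function.update_of_ne hpp, Function.update_of_ne hpp]
      exact h.short i hi p hp

end agr

section rev

variable (A : MTM) (Sh : A.Tape → Prop)

/-- The tapes that are not short. -/
abbrev Long : Type := {i : A.Tape // ¬ Sh i}

theorem finite_long : Finite (Long A Sh) := by
  haveI := A.finTape
  infer_instance

/-- The long tapes are finitely many. -/
noncomputable def fintypeLong : Fintype (Long A Sh) := by
  haveI := finite_long A Sh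
  exact Fintype.ofFinite _

attribute [local instance] fintypeLong

/-- The positions of the heads on the long tapes. -/
noncomputable def hd (w : List Letter) : Long A Sh → ℕ → ℕ := fun i t => (A.conf w t).head i.1

/-- The phases of the run on `w`. -/
noncomputable def ph (w : List Letter) : ℕ → ℕ := phase (hd A Sh w)

open Classical in
/-- The initial blocks. -/
noncomputable def bk (B : ℕ → ℕ) : Long A Sh → ℕ → ℕ := fun i p => if i.1 = A.inp then B p else 0

/-- The starting times of the eras of the run on `w`. -/
noncomputable def era (B : ℕ → ℕ) (w : List Letter) : ℕ → ℕ :=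
  st (hd A Sh w) (ph A Sh w) (bk A Sh B)

/-- The sources of the cells under the heads. -/
noncomputable def sr (B : ℕ → ℕ) (w : List Letter) : Long A Sh → ℕ → ℕ ⊕ ℕ :=
  srcT (hd A Sh w) (ph A Sh w) (bk A Sh B)

open Classical in
/-- The number of steps of the era starting at the time `c`. -/
noncomputable def elen (B : ℕ → ℕ) (w : List Letter) (c : ℕ) : ℕ :=
  #{t ∈ range (A.time w) | era A Sh B w t = c}

variable {A Sh} {B : ℕ → ℕ} {w : List Letter}

theorem era_le (t : ℕ) : era A Sh B w t ≤ t := st_le t

theorem era_era (t : ℕ) : era A Sh B w (era A Sh B w t) = era A Sh B w t := st_st t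

theorem ph_era (t : ℕ) : ph A Sh w (era A Sh B w t) = ph A Sh w t :=
  P_st (h := hd A Sh w) (P := ph A Sh w) (blk := bk A Sh B) t

theorem sr_era (i : Long A Sh) (t : ℕ) :
    sr A Sh B w i (era A Sh B w t) = sr A Sh B w i t := srcT_st i t

theorem lt_elen_iff {c : ℕ} (hc : era A Sh B w c = c) (s : ℕ) :
    s < elen A Sh B w c ↔ c + s < A.time w ∧ era A Sh B w (c + s) = c := by
  classical
  have hdown : ∀ t u, c ≤ u → u ≤ t → t < A.time w → era A Sh B w t = c →
      u < A.time w ∧ era A Sh B w u = c := by
    intro t u h1 h2 h3 h4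
    refine ⟨by omega, ?_⟩
    have := st_eq_of_le (h := hd A Sh w) (P := ph A Sh w) (blk := bk A Sh B) (t := t) (u := u)
      (by
        have : st (hd A Sh w) (ph A Sh w) (bk A Sh B) t = c := h4
        omega) h2
    exact this.trans h4
  constructor
  · intro h1
    by_contra hcon
    have h2 : {t ∈ range (A.time w) | era A Sh B w t = c} ⊆ Finset.Ico c (c + s) := by
      intro t ht
      rw [Finset.mem_filter, Finset.mem_range] at ht
      rw [Finset.mem_Ico]
      have h3 : c ≤ t := by
        have := era_le (A := A) (Sh := Sh) (B := B) (w := w) t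
        omega
      refine ⟨h3, ?_⟩
      by_contra h4
      exact hcon (hdown t (c + s) (by omega) (by omega) ht.1 ht.2)
    have h3 := Finset.card_le_card h2
    rw [Nat.card_Ico] at h3
    unfold elen at h1
    omega
  · intro h1
    have h2 : Finset.Icc c (c + s) ⊆ {t ∈ range (A.time w) | era A Sh B w t = c} := by
      intro t ht
      rw [Finset.mem_Icc] at ht
      rw [Finset.mem_filter, Finset.mem_range]
      exact hdown (c + s) t ht.1 ht.2 h1.1 h1.2
    have h3 := Finset.card_le_card h2
    rw [Nat.card_Icc] at h3
    unfold elen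
    omega

theorem elen_le (c : ℕ) : elen A Sh B w c ≤ A.time w := by
  classical
  unfold elen
  exact (Finset.card_filter_le _ _).trans (Finset.card_range _).le

/-- The contents of a cell that is entered inside a phase: last written at its last visit before
the phase. -/
theorem content_of_visited (i : Long A Sh) {u : ℕ} (hu : ph A Sh w (u + 1) = ph A Sh w u)
    (hmv : hd A Sh w i (u + 1) ≠ hd A Sh w i u)
    (hex : ∃ t < phs (ph A Sh w) (u + 1), hd A Sh w i t = hd A Sh w i (u + 1)) :
    (A.conf w (u + 1)).tape i.1 (hd A Sh w i (u + 1)) =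
      (A.conf w (lastV (hd A Sh w) i (hd A Sh w i (u + 1)) (phs (ph A Sh w) (u + 1)) + 1)).tape
        i.1 (hd A Sh w i (u + 1)) := by
  set p := hd A Sh w i (u + 1) with hp
  set a := phs (ph A Sh w) (u + 1) with ha
  obtain ⟨h1, h2⟩ := lastV_spec hex
  set τ := lastV (hd A Sh w) i p a with hτ
  have hau : a ≤ u := phs_le_of_eq hu.symm
  refine tape_const (· = p) w (by omega) (fun r h3 h4 h5 => ?_) rfl
  rcases Nat.lt_or_ge r a with h6 | h6
  · have h7 : r ≤ τ := le_lastV h6 h5
    omega
  · exact phase_new (h := hd A Sh w) i (x := a) (u := u)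
      ((P_phs (P := ph A Sh w) (u + 1)).symm) hmv h6 (by omega) h5

theorem content_of_not_visited (i : Long A Sh) {u : ℕ} (hu : ph A Sh w (u + 1) = ph A Sh w u)
    (hmv : hd A Sh w i (u + 1) ≠ hd A Sh w i u)
    (hex : ¬ ∃ t < phs (ph A Sh w) (u + 1), hd A Sh w i t = hd A Sh w i (u + 1)) :
    (A.conf w (u + 1)).tape i.1 (hd A Sh w i (u + 1)) =
      (A.init w).tape i.1 (hd A Sh w i (u + 1)) := by
  set p := hd A Sh w i (u + 1) with hp
  set a := phs (ph A Sh w) (u + 1) with ha
  refine tape_const (· = p) w (Nat.zero_le _) (fun r _ h4 h5 => ?_) rfl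
  rcases Nat.lt_or_ge r a with h6 | h6
  · exact hex ⟨r, h6, h5⟩
  · exact phase_new (h := hd A Sh w) i (x := a) (u := u)
      ((P_phs (P := ph A Sh w) (u + 1)).symm) hmv h6 (by omega) h5

end rev

/-- History trees of depth `d`. -/
def Adv (X K : Type) (b : ℕ) : ℕ → Type
  | 0 => Unit
  | d + 1 => X × (K → Fin b ⊕ Adv X K b d)

/-- What is recorded of an era: its first configuration and its length. -/
abbrev Rec (A : MTM) (T s : ℕ) : Type :=
  (A.State × (A.Tape → Fin (T + 1)) × (A.Tape → Fin s → A.Sym) × (A.Tape → A.Sym)) × Fin (T + 1)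

/-- The record of an era. -/
noncomputable def rec' {A : MTM} (Sh : A.Tape → Prop) (B : ℕ → ℕ) (T s : ℕ) (w : List Letter)
    (c : ℕ) : Rec A T s :=
  (((A.conf w c).state, fun i => Fin.ofNat (T + 1) ((A.conf w c).head i),
    fun i p => (A.conf w c).tape i p,
    fun i => (A.conf w c).tape i ((A.conf w c).head i)), Fin.ofNat (T + 1) (elen A Sh B w c))

/-- The history tree of the era starting at `c`. -/
noncomputable def tree {A : MTM} (Sh : A.Tape → Prop) (B : ℕ → ℕ) (T s b : ℕ) [NeZero b]
    (w : List Letter) : (d : ℕ) → ℕ → Adv (Rec A T s) (Long A Sh) b d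
  | 0, _ => ()
  | d + 1, c => (rec' Sh B T s w c, fun i =>
      Sum.map (Fin.ofNat b) (tree Sh B T s b w d) (sr A Sh B w i c))

/-- The block `m` is a leaf of the tree. -/
def Leaf {X K : Type} {b : ℕ} (m : Fin b) : (d : ℕ) → Adv X K b d → Prop
  | 0, _ => False
  | d + 1, x => ∃ i, Sum.elim (fun m' => m' = m) (fun y => Leaf m d y) (x.2 i)

end Vale.Agent.P338.R2.H313
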