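import Vale.Agent.P338.R2.H313.RevUnion
import Vale.Agent.P338.R2.H101.Main
import Vale.Agent.P338.R2.H968.Growth

/-!
P338, reversals: the main inequality.
-/

namespace Vale.Agent.P338.R2.H313

open Vale.Agent.P338.R2.H898 Vale.Agent.P338.R2.H101 Finset

section prelim

variable {A : MTM} {Sh : A.Tape → Prop}

attribute [local instance] fintypeLong

theorem finite_rev (L : Set A.Tape) (w : List Letter) :
    {p : A.Tape × ℕ | p.1 ∈ L ∧ p.2 < A.time w ∧
      Turn (fun t => (A.conf w t).head p.1) p.2}.Finite := by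
  haveI := A.finTape
  refine ((Set.finite_univ : (Set.univ : Set A.Tape).Finite).prod
    (Set.finite_Iio (A.time w))).subset ?_
  rintro ⟨i, t⟩ ⟨-, h, -⟩
  exact ⟨Set.mem_univ _, h⟩

theorem ph_le_reversals (w : List Letter) {t : ℕ} (ht : t < A.time w) :
    ph A Sh w t ≤ reversals A {i | ¬ Sh i} w := by
  classical
  have h1 : ph A Sh w t =
      #((Finset.univ : Finset (Long A Sh)).sigma fun i => {u ∈ range t | Turn (hd A Sh w i) u}) := by
    rw [Finset.card_sigma]
    rfl
  set F : Finset (A.Tape × ℕ) :=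
    ((Finset.univ : Finset (Long A Sh)).sigma fun i => {u ∈ range t | Turn (hd A Sh w i) u}).image
      (fun x => (x.1.1, x.2)) with hF
  have h2 : #F = #((Finset.univ : Finset (Long A Sh)).sigma
      fun i => {u ∈ range t | Turn (hd A Sh w i) u}) := by
    apply Finset.card_image_of_injOn
    rintro ⟨i, u⟩ _ ⟨j, v⟩ _ h
    simp only [Prod.mk.injEq] at h
    obtain ⟨h3, h4⟩ := h
    subst h4
    have : i = j := Subtype.ext h3
    subst this
    rfl
  rw [h1, ← h2, ← Set.ncard_coe_finset]
  apply Set.ncard_le_ncard _ (finite_rev _ w)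
  rintro ⟨i, u⟩ hiu
  rw [Finset.mem_coe, hF, Finset.mem_image] at hiu
  obtain ⟨⟨j, v⟩, hj, h5⟩ := hiu
  rw [Finset.mem_sigma, Finset.mem_filter, Finset.mem_range] at hj
  simp only [Prod.mk.injEq] at h5
  obtain ⟨h6, h7⟩ := h5
  subst h6 h7
  exact ⟨j.2, by have := hj.2.1; simp only at this ⊢; omega, hj.2.2⟩

theorem reversals_le_revNum {s n : ℕ} {x y : List Bool} (hx : x.length = n) (hy : y.length = n) :
    reversals A {i | ¬ Confined A s n i} (mulWord x y) ≤ revNum A s n := by
  unfold revNum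
  apply le_csSup
  · apply Set.Finite.bddAbove
    have h1 : {r | ∃ x y : List Bool, x.length = n ∧ y.length = n ∧
        r = reversals A {i | ¬ Confined A s n i} (mulWord x y)} ⊆
        (fun p : List Bool × List Bool =>
          reversals A {i | ¬ Confined A s n i} (mulWord p.1 p.2)) ''
          ({x : List Bool | x.length = n} ×ˢ {y : List Bool | y.length = n}) := by
      rintro t ⟨x, y, h1, h2, rfl⟩
      exact ⟨(x, y), ⟨h1, h2⟩, rfl⟩
    exact ((List.finite_length_eq Bool n).prod (List.finite_length_eq Bool n)).image _ |>.subset h1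
  · exact ⟨x, y, hx, hy, rfl⟩

/-- The output head visits the end of the output. -/
theorem out_visited (hA : Multiplies A) {n : ℕ} (hn : 1 ≤ n) {x y : List Bool}
    (hx : x.length = n) (hy : y.length = n) :
    ∃ t < A.time (mulWord x y), 2 * n - 1 ≤ (A.conf (mulWord x y) t).head A.out := by
  set w := mulWord x y with hw
  obtain ⟨-, hout⟩ := hA n hn x y hx hy
  by_contra hcon
  push Not at hcon
  have hconst : ∀ p, 2 * n - 1 ≤ p → (A.conf w (A.time w)).tape A.out p =
      (A.init w).tape A.out p := by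
    intro p hp
    exact tape_const (· = p) w (Nat.zero_le _) (fun r _ h4 h5 => by
      have := hcon r h4; omega) rfl
  have hlen : ((bin (2 * n) (val x * val y)).map bitL).length = 2 * n := by simp
  have hwlen : w.length = 2 * n + 1 := by
    rw [hw, mulWord, List.length_append, List.length_cons, List.length_map, List.length_map, hx, hy]
    omega
  by_cases hio : A.out = A.inp
  · have h1 := hout (2 * n)
    have h2 := hconst (2 * n) (by omega)
    rw [h1] at h2
    rw [List.getElem?_eq_none (by rw [hlen])] at h2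
    have h3 : w[2 * n]? = some (w[2 * n]'(by omega)) := List.getElem?_eq_getElem (by omega)
    simp only [MTM.init, hio, if_true, h3, Option.map_none, Option.getD_none, Option.map_some,
      Option.getD_some] at h2
    exact A.letter_ne_blank _ h2.symm
  · have h1 := hout (2 * n - 1)
    have h2 := hconst (2 * n - 1) le_rfl
    rw [h1] at h2
    have h3 : ((bin (2 * n) (val x * val y)).map bitL)[2 * n - 1]? =
        some (((bin (2 * n) (val x * val y)).map bitL)[2 * n - 1]'(by omega)) :=
      List.getElem?_eq_getElem (by omega)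
    rw [h3] at h2
    simp only [MTM.init, if_neg hio, Option.map_some, Option.getD_some] at h2
    exact A.letter_ne_blank _ h2

theorem le_time (hA : Multiplies A) {n : ℕ} (hn : 1 ≤ n) {x y : List Bool}
    (hx : x.length = n) (hy : y.length = n) : n ≤ A.time (mulWord x y) := by
  obtain ⟨t, h1, h2⟩ := out_visited hA hn hx hy
  have := head_conf_le (mulWord x y) t A.out
  omega

theorem le_of_confined_out (hA : Multiplies A) {n s : ℕ} (hn : 1 ≤ n)
    (h : Confined A s n A.out) : n ≤ s := by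
  have hx : (List.replicate n false).length = n := by simp
  obtain ⟨t, h1, h2⟩ := out_visited hA hn hx hx
  have := h _ _ hx hx t
  omega

theorem blocks_boundary (n w0 : ℕ) (hw : 1 ≤ w0) (B : ℕ → ℕ) (hB : B = blkN n w0)
    (i : Long A Sh) : ∃ F : Finset ℕ, #F ≤ (2 * n + 1) / w0 ∧
      ∀ m, bk A Sh B i m ≠ bk A Sh B i (m + 1) → m ∈ F := by
  classical
  refine ⟨(range ((2 * n + 1) / w0)).image (fun j => w0 * (j + 1) - 1),
    (Finset.card_image_le).trans (Finset.card_range _).le, fun m hm => ?_⟩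
  unfold bk at hm
  split_ifs at hm with h1
  · rw [hB] at hm
    unfold blkN at hm
    have h2 : m + 1 ≤ 2 * n + 1 := by
      by_contra hcon
      apply hm
      rw [min_eq_right (by omega), min_eq_right (by omega)]
    rw [min_eq_left (by omega), min_eq_left (by omega)] at hm
    rw [Finset.mem_image]
    have h3 := Nat.succ_div (a := m) (b := w0)
    have h4 : w0 ∣ m + 1 := by
      by_contra hcon
      rw [if_neg hcon] at h3
      exact hm h3.symm
    obtain ⟨j, hj⟩ := h4
    have hj0 : 1 ≤ j := by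
      rcases Nat.eq_zero_or_pos j with h | h
      · subst h; simp at hj
      · exact h
    refine ⟨j - 1, ?_, ?_⟩
    · rw [Finset.mem_range]
      have : j ≤ (2 * n + 1) / w0 := by
        rw [Nat.le_div_iff_mul_le (by omega), Nat.mul_comm, ← hj]
        exact h2
      omega
    · rw [Nat.sub_add_cancel hj0, ← hj]
      rfl
  · exact absurd rfl hm

end prelim

section main

variable {A : MTM}

attribute [local instance] fintypeLong

theorem card_rec (A : MTM) (T s : ℕ) : Nat.card (Rec A T s) =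
    Nat.card A.State * ((T + 1) ^ Nat.card A.Tape * ((Nat.card A.Sym ^ s) ^ Nat.card A.Tape *
      Nat.card A.Sym ^ Nat.card A.Tape)) * (T + 1) := by
  haveI := A.finSym
  haveI := A.finTape
  haveI := A.finState
  rw [Nat.card_prod, Nat.card_prod, Nat.card_prod, Nat.card_prod, Nat.card_fun, Nat.card_fun,
    Nat.card_fun, Nat.card_fun, Nat.card_fin, Nat.card_fin]

theorem card_rec_le (A : MTM) {T s q g L : ℕ} (hq : Nat.card A.State ≤ 2 ^ q)
    (hg : Nat.card A.Sym ≤ 2 ^ g) (hL : T + 1 ≤ 2 ^ L) : Nat.card (Rec A T s) ≤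
    2 ^ (q + (L * Nat.card A.Tape + (g * s * Nat.card A.Tape + g * Nat.card A.Tape)) + L) := by
  rw [card_rec]
  calc _ ≤ 2 ^ q * ((2 ^ L) ^ Nat.card A.Tape * (((2 ^ g) ^ s) ^ Nat.card A.Tape *
        (2 ^ g) ^ Nat.card A.Tape)) * 2 ^ L := by gcongr
    _ = _ := by
      rw [← pow_mul, ← pow_mul, ← pow_mul, ← pow_mul, ← pow_add, ← pow_add, ← pow_add, ← pow_add,
        Nat.mul_assoc g s]

/-- The main inequality in a form with all parameters. -/
theorem rev_param (hA : Multiplies A) {n s : ℕ} (hn1 : 1 ≤ n)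
    (hO : ¬ Confined A s n A.out) {D μ w0 b0 r T L x : ℕ} (hD : 1 ≤ D) (hμ : 1 ≤ μ)
    (hX : 4 * μ < 2 ^ D) (hDY : D * (5 * μ) ≤ n) (hw : 1 ≤ w0) (hb0 : b0 = (2 * n + 1) / w0)
    (hr : r = revNum A s n) (hT : T = mulTime A n) (hL : T + 1 ≤ 2 ^ L)
    (hR : Nat.card A.Tape ^ (r + 1) * (w0 + D) ≤ 2 * μ * D)
    (hx : Nat.card (Rec A T s) ≤ 2 ^ x) (hbx : b0 + 1 ≤ 2 ^ x) :
    μ / ((2 * (Nat.card A.Tape + 1) + 2) ^ (r + 1) * ((Nat.card A.Tape + 1) * b0 + 1) + b0 + 1) ≤
      (x + 1) * (Nat.card A.Tape + 2) ^ (r + 2) + 2 * L + 3 := by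
  classical
  haveI := A.finTape
  set Sh : A.Tape → Prop := Confined A s n with hSh
  set K := Nat.card A.Tape with hK
  set k := Fintype.card (Long A Sh) with hk
  have hkc : Nat.card (Long A Sh) = k := Nat.card_eq_fintype_card
  have hkK : k ≤ K := by
    rw [← hkc]
    exact Nat.card_le_card_of_injective (fun i : Long A Sh => i.1) Subtype.val_injective
  set O : Long A Sh := ⟨A.out, hO⟩ with hOdef
  set M := (2 * (K + 1) + 2) ^ (r + 1) * ((K + 1) * b0 + 1) + b0 + 1 with hM
  set m := μ / M with hm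
  have hlx : ∀ ω : Inp (4 * μ) (5 * μ), (wx n D ω).length = n := fun ω => by simp [wx]
  have hly : ∀ ω : Inp (4 * μ) (5 * μ), (wy n D ω).length = n := fun ω => by simp [wy]
  have hTω : ∀ ω : Inp (4 * μ) (5 * μ), A.time (word n D ω) ≤ T := by
    intro ω
    rw [hT]
    exact time_le_mulTime' A (hlx ω) (hly ω)
  have hrω : ∀ (ω : Inp (4 * μ) (5 * μ)) (t : ℕ), t < A.time (word n D ω) →
      ph A Sh (word n D ω) t ≤ r := by
    intro ω t ht
    rw [hr]
    exact (ph_le_reversals _ ht).trans (reversals_le_revNum (hlx ω) (hly ω))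
  haveI : NeZero (b0 + 1) := ⟨by omega⟩
  have hub := union_bound (A := A) (Sh := Sh) hA O rfl (n := n) (D := D) (μ := μ) (T := T) (s := s)
    (b := b0 + 1) (d := r + 1) (w0 := w0) (m := m) hn1 hD hX hDY hμ hw (by omega) hTω
    (fun ω t i hi => hi _ _ (hlx ω) (hly ω) t) (by
      rw [hkc]
      calc k ^ (r + 1) * (w0 + D) ≤ K ^ (r + 1) * (w0 + D) :=
            Nat.mul_le_mul_right _ (Nat.pow_le_pow_left hkK _)
        _ ≤ _ := hR) (by
      intro ω
      refine exists_source O (b := b0 + 1) (r := r) (by omega) (hrω ω)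
        (fun x => pcell n D (4 * μ) x) (M := M) ?_ (Nat.mul_div_le μ M)
      have hcuts := H968.card_cuts (h := hd A Sh (word n D ω)) (P := ph A Sh (word n D ω))
        (blk := bk A Sh (blkN n w0)) b0 ph_mono (fun i t => hd_step _ i t)
        (fun i t u => phase_cross i t u) (fun i => by
          rw [hb0]
          exact blocks_boundary n w0 hw _ rfl i) (A.time (word n D ω)) r (hrω ω)
      have h1 : (2 * k + 2) ^ (r + 1) * (k * b0 + 1) ≤
          (2 * (K + 1) + 2) ^ (r + 1) * ((K + 1) * b0 + 1) := by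
        apply Nat.mul_le_mul
        · exact Nat.pow_le_pow_left (by omega) _
        · have : k * b0 ≤ (K + 1) * b0 := Nat.mul_le_mul_right _ (by omega)
          omega
      have h2 := hcuts.trans h1
      rw [hM]
      have h3 : #{t ∈ range (A.time (word n D ω)) |
          era A Sh (blkN n w0) (word n D ω) t = t} ≤
          (2 * (K + 1) + 2) ^ (r + 1) * ((K + 1) * b0 + 1) := h2
      omega)
  -- the number of advices
  haveI := finite_rec A T s
  haveI := finite_long A Sh
  haveI := finite_adv (X := Rec A T s) (K := Long A Sh) (b := b0 + 1) (r + 1)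
  have hadv : Nat.card (Adv (Rec A T s) (Long A Sh) (b0 + 1) (r + 1)) ≤
      2 ^ ((x + 1) * (K + 2) ^ (r + 2)) := by
    refine (card_adv_le hx hbx (r + 1)).trans (Nat.pow_le_pow_right (by norm_num) ?_)
    rw [hkc]
    exact Nat.mul_le_mul_left _ (Nat.pow_le_pow_left (by omega) _)
  have hcard : Nat.card (AdvT A Sh T s (b0 + 1) (r + 1)) ≤
      2 ^ ((x + 1) * (K + 2) ^ (r + 2) + 1 + (1 + (L + L))) := by
    rw [Nat.card_prod, Nat.card_sum, Nat.card_prod, Nat.card_prod, Nat.card_fin, Nat.card_fin,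
      pow_add, pow_add 2 1]
    apply Nat.mul_le_mul
    · have h1 : b0 + 1 ≤ 2 ^ ((x + 1) * (K + 2) ^ (r + 2)) := by
        refine hbx.trans (Nat.pow_le_pow_right (by norm_num) ?_)
        have h2 : 1 ≤ (K + 2) ^ (r + 2) := Nat.one_le_pow _ _ (by omega)
        nlinarith
      calc b0 + 1 + Nat.card (Adv (Rec A T s) (Long A Sh) (b0 + 1) (r + 1))
          ≤ 2 ^ ((x + 1) * (K + 2) ^ (r + 2)) + 2 ^ ((x + 1) * (K + 2) ^ (r + 2)) :=
            Nat.add_le_add h1 hadv
        _ = 2 ^ ((x + 1) * (K + 2) ^ (r + 2) + 1) := by rw [pow_succ]; ring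
    · apply Nat.mul_le_mul
      · simp
      · rw [pow_add]
        exact Nat.mul_le_mul hL hL
  have hfin : 2 ^ m ≤ 2 ^ ((x + 1) * (K + 2) ^ (r + 2) + 1 + (1 + (L + L)) + 1) := by
    calc 2 ^ m ≤ 2 * Nat.card (AdvT A Sh T s (b0 + 1) (r + 1)) := hub
      _ ≤ 2 * 2 ^ ((x + 1) * (K + 2) ^ (r + 2) + 1 + (1 + (L + L))) :=
        Nat.mul_le_mul_left _ hcard
      _ = _ := by rw [pow_succ _ ((x + 1) * (K + 2) ^ (r + 2) + 1 + (1 + (L + L)))]; ring
  have h1 : m ≤ (x + 1) * (K + 2) ^ (r + 2) + 1 + (1 + (L + L)) + 1 :=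
    (Nat.pow_le_pow_iff_right (by norm_num)).1 hfin
  omega

end main

end Vale.Agent.P338.R2.H313
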