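import Vale.Agent.P338.R2.H313.RevClass

/-!
P338, reversals: the union bound.
-/

namespace Vale.Agent.P338.R2.H313

open Vale.Agent.P338.R2.H898 Vale.Agent.P338.R2.H101 Finset

variable {A : MTM} {Sh : A.Tape → Prop}

attribute [local instance] fintypeLong

theorem finite_rec (A : MTM) (T s : ℕ) : Finite (Rec A T s) := by
  haveI := A.finSym
  haveI := A.finTape
  haveI := A.finState
  infer_instance

/-- The type of the advices. -/
abbrev AdvT (A : MTM) (Sh : A.Tape → Prop) (T s b d : ℕ) : Type :=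
  (Fin b ⊕ Adv (Rec A T s) (Long A Sh) b d) × (Bool × Fin (T + 1) × Fin (T + 1))

theorem finite_advT (T s b d : ℕ) : Finite (AdvT A Sh T s b d) := by
  haveI := finite_rec A T s
  haveI := finite_long A Sh
  haveI := finite_adv (X := Rec A T s) (K := Long A Sh) (b := b) d
  infer_instance

theorem union_bound (hA : Multiplies A) (O : Long A Sh) (hO : O.1 = A.out)
    {n D μ T s b d w0 m : ℕ} [NeZero b] (hn1 : 1 ≤ n) (hD : 1 ≤ D) (hX : 4 * μ < 2 ^ D)
    (hDY : D * (5 * μ) ≤ n) (hμ : 1 ≤ μ) (hw : 1 ≤ w0) (hb : (2 * n + 1) / w0 < b)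
    (hT : ∀ ω : Inp (4 * μ) (5 * μ), A.time (word n D ω) ≤ T)
    (hs : ∀ (ω : Inp (4 * μ) (5 * μ)) (t : ℕ) (i : A.Tape), Sh i →
      (A.conf (word n D ω) t).head i < s)
    (hR : Nat.card (Long A Sh) ^ d * (w0 + D) ≤ 2 * μ * D)
    (hm : ∀ ω : Inp (4 * μ) (5 * μ), ∃ σ, ValidS Sh (blkN n w0) (word n D ω) d σ ∧
      m ≤ #{x : Fin μ | fsrc Sh (blkN n w0) (word n D ω) O (pcell n D (4 * μ) x) = σ}) :
    2 ^ m ≤ 2 * Nat.card (AdvT A Sh T s b d) := by
  classical
  haveI := finite_advT (A := A) (Sh := Sh) T s b d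
  haveI := finite_long A Sh
  haveI : Fintype (AdvT A Sh T s b d) := Fintype.ofFinite _
  choose σ hσ1 hσ2 using hm
  set adv : Inp (4 * μ) (5 * μ) → AdvT A Sh T s b d := fun ω =>
    advice Sh (blkN n w0) T s b d O (word n D ω) (σ ω) with hadv
  have hk : 1 ≤ Nat.card (Long A Sh) := by
    haveI : Nonempty (Long A Sh) := ⟨O⟩
    exact Nat.card_pos
  have hclass : ∀ δ : AdvT A Sh T s b d, 2 ^ m * #{ω : Inp (4 * μ) (5 * μ) | adv ω = δ} ≤
      2 * 2 ^ (4 * μ + 5 * μ) := by
    intro δ
    -- the leaves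
    obtain ⟨F, hF1, hF2⟩ : ∃ F : Finset (Fin b), #F ≤ Nat.card (Long A Sh) ^ d ∧
        ∀ x : Fin b, Sum.elim (fun m' => m' = x) (fun y => Leaf x d y) δ.1 → x ∈ F := by
      cases h1 : δ.1 with
      | inl m' =>
        refine ⟨{m'}, ?_, fun x hx => ?_⟩
        · rw [Finset.card_singleton]
          exact Nat.one_le_pow _ _ hk
        · simp only [Sum.elim_inl] at hx
          simp [hx]
      | inr y =>
        obtain ⟨F, hF1, hF2⟩ := exists_leaves d y
        exact ⟨F, hF1, fun x hx => hF2 x (by simpa using hx)⟩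
    set R := coords n D (4 * μ) (5 * μ) {p | ∃ x ∈ F, (x : ℕ) = blkN n w0 p} with hRdef
    have hR1 : D * #R ≤ D * (2 * μ) := by
      calc D * #R ≤ #F * (w0 + D) := card_coords_blocks hD hDY hw F
        _ ≤ Nat.card (Long A Sh) ^ d * (w0 + D) := Nat.mul_le_mul_right _ hF1
        _ ≤ 2 * μ * D := hR
        _ = D * (2 * μ) := Nat.mul_comm _ _
    have hR2 : #R ≤ 2 * μ := Nat.le_of_mul_le_mul_left hR1 (by omega)
    apply class_card (μ := μ) (by omega) R (by omega)
    intro ω hω
    rw [Finset.mem_filter] at hω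
    refine ⟨_, hσ2 ω, fun ω' hω' hag x hx => ?_⟩
    rw [Finset.mem_filter] at hω' hx
    have h1 : adv ω = adv ω' := by rw [hω.2, hω'.2]
    have h2 := claim_same (T := T) (s := s) (b := b) (d := d) (hT ω) (hT ω') (hs ω) O (hσ1 ω)
      (hσ1 ω') h1 (by
        intro p hp
        apply word_local hD
        intro i hi
        symm
        apply hag
        rw [hRdef, mem_coords]
        refine ⟨p, ⟨Fin.ofNat b (blkN n w0 p), hF2 _ ?_, ?_⟩, hi⟩
        · have h3 : (advice Sh (blkN n w0) T s b d O (word n D ω) (σ ω)).1 = δ.1 := by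
            rw [← hω.2]
          rw [h3] at hp
          cases h4 : δ.1 with
          | inl m' =>
            rw [h4] at hp
            simpa using hp
          | inr y =>
            rw [h4] at hp
            simpa using hp
        · simp only [Fin.ofNat]
          apply Nat.mod_eq_of_lt
          refine lt_of_le_of_lt ?_ hb
          unfold blkN
          exact Nat.div_le_div_right (min_le_right _ _)) _ hx.2
    rw [hO, final_bit hA hn1 hD hX hDY (by omega) hμ ω x,
      final_bit hA hn1 hD hX hDY (by omega) hμ ω' x] at h2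
    exact (conv_eq_of_letter h2).symm
  -- the union bound
  have hsum : 2 ^ m * 2 ^ (4 * μ + 5 * μ) ≤
      Fintype.card (AdvT A Sh T s b d) * (2 * 2 ^ (4 * μ + 5 * μ)) := by
    have h1 : #(Finset.univ : Finset (Inp (4 * μ) (5 * μ))) =
        ∑ δ : AdvT A Sh T s b d, #{ω : Inp (4 * μ) (5 * μ) | adv ω = δ} := by
      rw [Finset.card_eq_sum_card_fiberwise (f := adv) (t := Finset.univ)
        (fun ω _ => by simp)]
    have h2 : #(Finset.univ : Finset (Inp (4 * μ) (5 * μ))) = 2 ^ (4 * μ + 5 * μ) := by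
      rw [Finset.card_univ, Fintype.card_prod]
      simp only [Fintype.card_pi, Finset.prod_const, Finset.card_univ, Fintype.card_fin,
        ZMod.card]
      rw [← pow_add]
    rw [← h2, h1, Finset.mul_sum, ← h1, h2]
    calc ∑ δ : AdvT A Sh T s b d, 2 ^ m * #{ω : Inp (4 * μ) (5 * μ) | adv ω = δ}
        ≤ ∑ _δ : AdvT A Sh T s b d, 2 * 2 ^ (4 * μ + 5 * μ) :=
          Finset.sum_le_sum fun δ _ => hclass δ
      _ = _ := by rw [Finset.sum_const, smul_eq_mul, Finset.card_univ]
  rw [Nat.card_eq_fintype_card]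
  refine Nat.le_of_mul_le_mul_right (c := 2 ^ (4 * μ + 5 * μ)) ?_ (by positivity)
  calc 2 ^ m * 2 ^ (4 * μ + 5 * μ) ≤ _ := hsum
    _ = _ := by ring

/-- Some source has many of the product bits. -/
theorem exists_source {w : List Letter} (O : Long A Sh) {n μ b r w0 m : ℕ}
    (hb : (2 * n + 1) / w0 < b) (hr : ∀ t < A.time w, ph A Sh w t ≤ r) (cell : Fin μ → ℕ)
    {M : ℕ} (hM : open Classical in
      #{t ∈ range (A.time w) | era A Sh (blkN n w0) w t = t} + b ≤ M) (hm : M * m ≤ μ) :
    ∃ σ, ValidS Sh (blkN n w0) w (r + 1) σ ∧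
      m ≤ #{x : Fin μ | fsrc Sh (blkN n w0) w O (cell x) = σ} := by
  classical
  set Cuts : Finset ℕ := {t ∈ range (A.time w) | era A Sh (blkN n w0) w t = t} with hCuts
  set S : Finset (ℕ ⊕ ℕ) := (range b).image Sum.inl ∪ Cuts.image Sum.inr with hS
  have hcard : #S ≤ M := by
    calc #S ≤ #((range b).image (Sum.inl : ℕ → ℕ ⊕ ℕ)) + #(Cuts.image (Sum.inr : ℕ → ℕ ⊕ ℕ)) :=
          Finset.card_union_le _ _
      _ ≤ #(range b) + #Cuts := Nat.add_le_add Finset.card_image_le Finset.card_image_le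
      _ = #Cuts + b := by rw [Finset.card_range, Nat.add_comm]
      _ ≤ M := by convert hM
  have hmaps : ∀ x ∈ (Finset.univ : Finset (Fin μ)),
      fsrc Sh (blkN n w0) w O (cell x) ∈ S := by
    intro x _
    unfold fsrc src
    split_ifs with hex
    · rw [hS, Finset.mem_union]
      right
      apply Finset.mem_image_of_mem
      rw [hCuts, Finset.mem_filter, Finset.mem_range]
      have h1 := (lastV_spec hex).1
      refine ⟨lt_of_le_of_lt (era_le _) h1, era_era _⟩
    · rw [hS, Finset.mem_union]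
      left
      apply Finset.mem_image_of_mem
      rw [Finset.mem_range]
      unfold bk
      split_ifs
      · refine lt_of_le_of_lt ?_ hb
        unfold blkN
        exact Nat.div_le_div_right (min_le_right _ _)
      · exact lt_of_le_of_lt (Nat.zero_le _) hb
  have hb0 : 0 < b := lt_of_le_of_lt (Nat.zero_le _) hb
  have hne : S.Nonempty := by
    refine ⟨Sum.inl 0, ?_⟩
    rw [hS, Finset.mem_union]
    left
    apply Finset.mem_image_of_mem
    rw [Finset.mem_range]
    exact hb0
  have hn : #S * m ≤ #(Finset.univ : Finset (Fin μ)) := by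
    rw [Finset.card_univ, Fintype.card_fin]
    exact (Nat.mul_le_mul_right _ hcard).trans hm
  obtain ⟨σ, hσ, hσm⟩ :=
    Finset.exists_le_card_fiber_of_mul_le_card_of_maps_to hmaps hne hn
  refine ⟨σ, ?_, hσm⟩
  rw [hS, Finset.mem_union, Finset.mem_image, Finset.mem_image] at hσ
  rcases hσ with ⟨j, hj, rfl⟩ | ⟨e, he, rfl⟩
  · trivial
  · rw [hCuts, Finset.mem_filter, Finset.mem_range] at he
    exact ⟨he.1, he.2, Nat.lt_succ_of_le (hr e he.1)⟩

end Vale.Agent.P338.R2.H313
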