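import Vale.Agent.P338.R2.H898.Model

/-!
P338, unconditional lower bound: restricted tapes and elementary facts on runs.
-/

namespace Vale.Agent.P338.R2.H313

open Vale.Agent.P338.R2.H898

/-- The machine `A` never modifies the tape `i`. -/
def ReadOnly (A : MTM) (i : A.Tape) : Prop :=
  ∀ q r q' a, A.step q r = some (q', a) → (a i).1 = r i

/-- The head of `A` on the tape `i` never moves to the left. -/
def OneWay (A : MTM) (i : A.Tape) : Prop :=
  ∀ q r q' a, A.step q r = some (q', a) → (a i).2 ≠ Move.left

section run

variable {A : MTM}

theorem conf_succ (w : List Letter) (t : ℕ) : A.conf w (t + 1) = A.next (A.conf w t) :=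
  Function.iterate_succ_apply' _ _ _

theorem next_of_act {c : A.Conf} {q : A.State} {a : A.Tape → A.Sym × Move}
    (h : A.act c = some (q, a)) :
    A.next c = { state := q
                 tape := fun i => Function.update (c.tape i) (c.head i) (a i).1
                 head := fun i => (a i).2.app (c.head i) } := by
  unfold MTM.next
  rw [h]

theorem next_of_halted {c : A.Conf} (h : A.Halted c) : A.next c = c := by
  unfold MTM.next
  rw [show A.act c = none from h]

theorem conf_add_of_halted {w : List Letter} {t : ℕ} (h : A.Halted (A.conf w t)) (s : ℕ) :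
    A.conf w (t + s) = A.conf w t := by
  induction s with
  | zero => rfl
  | succ s ih => rw [← Nat.add_assoc, conf_succ, ih, next_of_halted h]

theorem exists_act {w : List Letter} {t : ℕ} (ht : t < A.time w) :
    ∃ q a, A.act (A.conf w t) = some (q, a) := by
  have h : ¬ A.Halted (A.conf w t) := Nat.notMem_of_lt_sInf ht
  unfold MTM.Halted at h
  cases h1 : A.act (A.conf w t) with
  | none => exact absurd h1 h
  | some x => exact ⟨x.1, x.2, rfl⟩

theorem halted_time {w : List Letter} (h : A.Halts w) : A.Halted (A.conf w (A.time w)) :=
  Nat.sInf_mem h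

theorem app_le (m : Move) (p : ℕ) : m.app p ≤ p + 1 := by
  cases m <;> simp [Move.app]
  omega

theorem le_app (m : Move) (p : ℕ) : p ≤ m.app p + 1 := by
  cases m <;> simp [Move.app] <;> omega

theorem head_next_le (c : A.Conf) (i : A.Tape) : (A.next c).head i ≤ c.head i + 1 := by
  cases h : A.act c with
  | none => rw [next_of_halted h]; omega
  | some x => rw [next_of_act (q := x.1) (a := x.2) h]; exact app_le _ _

theorem head_le_next (c : A.Conf) (i : A.Tape) : c.head i ≤ (A.next c).head i + 1 := by
  cases h : A.act c with
  | none => rw [next_of_halted h]; omega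
  | some x => rw [next_of_act (q := x.1) (a := x.2) h]; exact le_app _ _

theorem tape_next_of_ne (c : A.Conf) (i : A.Tape) {p : ℕ} (hp : p ≠ c.head i) :
    (A.next c).tape i p = c.tape i p := by
  cases h : A.act c with
  | none => rw [next_of_halted h]
  | some x => rw [next_of_act (q := x.1) (a := x.2) h]; exact Function.update_of_ne hp _ _

theorem ReadOnly.next {i : A.Tape} (hi : ReadOnly A i) (c : A.Conf) :
    (A.next c).tape i = c.tape i := by
  cases h : A.act c with
  | none => rw [next_of_halted h]
  | some x =>
    rw [next_of_act (q := x.1) (a := x.2) h]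
    funext p
    have h1 := hi _ _ _ _ h
    simp only
    rw [h1]
    by_cases hp : p = c.head i
    · subst hp; simp
    · rw [Function.update_of_ne hp]

theorem ReadOnly.conf {i : A.Tape} (hi : ReadOnly A i) (w : List Letter) (t : ℕ) :
    (A.conf w t).tape i = (A.init w).tape i := by
  induction t with
  | zero => rfl
  | succ t ih => rw [conf_succ, hi.next, ih]

theorem OneWay.next {i : A.Tape} (hi : OneWay A i) (c : A.Conf) :
    c.head i ≤ (A.next c).head i := by
  cases h : A.act c with
  | none => rw [next_of_halted h]
  | some x =>
    rw [next_of_act (q := x.1) (a := x.2) h]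
    have h1 := hi _ _ _ _ h
    simp only
    cases h2 : (x.2 i).2 with
    | left => exact absurd h2 h1
    | stay => simp [Move.app]
    | right => simp [Move.app]

theorem OneWay.mono {i : A.Tape} (hi : OneWay A i) (w : List Letter) {s t : ℕ} (hst : s ≤ t) :
    (A.conf w s).head i ≤ (A.conf w t).head i := by
  induction t, hst using Nat.le_induction with
  | base => exact le_rfl
  | succ t _ ih => rw [conf_succ]; exact ih.trans (hi.next _)

theorem head_conf_le (w : List Letter) (t : ℕ) (i : A.Tape) : (A.conf w t).head i ≤ t := by
  induction t with
  | zero => exact le_rfl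
  | succ t ih =>
    rw [conf_succ]
    have := head_next_le (A.conf w t) i
    omega

/-- The heads move at most one cell per step. -/
theorem head_conf_add_le (w : List Letter) (t s : ℕ) (i : A.Tape) :
    (A.conf w (t + s)).head i ≤ (A.conf w t).head i + s ∧
      (A.conf w t).head i ≤ (A.conf w (t + s)).head i + s := by
  induction s with
  | zero => exact ⟨le_rfl, le_rfl⟩
  | succ s ih =>
    rw [← Nat.add_assoc, conf_succ]
    have h1 := head_next_le (A.conf w (t + s)) i
    have h2 := head_le_next (A.conf w (t + s)) i
    omega

/-- The cells to the right of a one-way head are still in their initial state. -/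
theorem OneWay.fresh {i : A.Tape} (hi : OneWay A i) (w : List Letter) (t : ℕ) {p : ℕ}
    (hp : (A.conf w t).head i < p) : (A.conf w t).tape i p = (A.init w).tape i p := by
  induction t with
  | zero => rfl
  | succ t ih =>
    rw [conf_succ] at hp ⊢
    have h1 := hi.next (A.conf w t)
    rw [tape_next_of_ne _ _ (by omega), ih (by omega)]

/-- The cells to the left of a one-way head are final. -/
theorem OneWay.final {i : A.Tape} (hi : OneWay A i) (w : List Letter) {s t : ℕ} (hst : s ≤ t)
    {p : ℕ} (hp : p < (A.conf w s).head i) : (A.conf w t).tape i p = (A.conf w s).tape i p := by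
  induction t, hst using Nat.le_induction with
  | base => rfl
  | succ t hst ih =>
    have h1 := hi.mono w hst
    rw [conf_succ, tape_next_of_ne _ _ (by omega), ih]

/-- The contents of a set of cells of a tape do not change as long as the head is outside. -/
theorem tape_const {i : A.Tape} (Z : ℕ → Prop) (w : List Letter) {s t : ℕ} (hst : s ≤ t)
    (h : ∀ r, s ≤ r → r < t → ¬ Z ((A.conf w r).head i)) {p : ℕ} (hp : Z p) :
    (A.conf w t).tape i p = (A.conf w s).tape i p := by
  induction t, hst using Nat.le_induction with
  | base => rfl
  | succ t hst ih =>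
    rw [conf_succ, tape_next_of_ne, ih fun r h1 h2 => h r h1 (by omega)]
    rintro rfl
    exact h t hst (by omega) hp

theorem init_tape_of_ne (w w' : List Letter) {i : A.Tape} (hi : i ≠ A.inp) (p : ℕ) :
    (A.init w).tape i p = (A.init w').tape i p := by
  simp [MTM.init, hi]

theorem init_tape_inp {w w' : List Letter} {p : ℕ} (h : w[p]? = w'[p]?) (i : A.Tape) :
    (A.init w).tape i p = (A.init w').tape i p := by
  by_cases hi : i = A.inp
  · simp [MTM.init, hi, h]
  · exact init_tape_of_ne w w' hi p

end run

/-- Two configurations agree locally: same state, same head positions, same contents of the set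
`Z` of cells of the tape `W`, same contents of the short tapes, same symbols under the heads of
the other tapes. -/
structure Agree (A : MTM) (W : A.Tape) (Sh : A.Tape → Prop) (s : ℕ) (Z : ℕ → Prop)
    (c c' : A.Conf) : Prop where
  state : c.state = c'.state
  head : c.head = c'.head
  zone : ∀ p, Z p → c.tape W p = c'.tape W p
  short : ∀ i, i ≠ W → Sh i → ∀ p < s, c.tape i p = c'.tape i p
  sym : ∀ i, i ≠ W → ¬ Sh i → c.tape i (c.head i) = c'.tape i (c'.head i)

section agree

variable {A : MTM} {W : A.Tape} {Sh : A.Tape → Prop} {s : ℕ} {Z : ℕ → Prop}

theorem Agree.act_eq {c c' : A.Conf} (h : Agree A W Sh s Z c c') (hZ : Z (c.head W))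
    (hs : ∀ i, i ≠ W → Sh i → c.head i < s) : A.act c = A.act c' := by
  unfold MTM.act
  rw [h.state]
  congr 1
  funext i
  by_cases hi : i = W
  · subst hi
    rw [h.zone _ hZ, h.head]
  · by_cases hsh : Sh i
    · rw [h.short i hi hsh _ (hs i hi hsh), h.head]
    · exact h.sym i hi hsh

theorem Agree.zone_next {c c' : A.Conf} (h : Agree A W Sh s Z c c') (hZ : Z (c.head W))
    (hs : ∀ i, i ≠ W → Sh i → c.head i < s) {p : ℕ} (hp : Z p) :
    (A.next c).tape W p = (A.next c').tape W p := by
  have ha := h.act_eq hZ hs
  cases h1 : A.act c with
  | none =>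
    rw [next_of_halted h1, next_of_halted (c := _) (show A.Halted _ from ha.symm.trans h1)]
    exact h.zone p hp
  | some x =>
    rw [next_of_act (q := x.1) (a := x.2) h1, next_of_act (q := x.1) (a := x.2) (ha.symm.trans h1)]
    simp only
    rw [← h.head]
    by_cases hpp : p = c.head W
    · subst hpp; simp
    · rw [Function.update_of_ne hpp, Function.update_of_ne hpp]
      exact h.zone p hp

/-- One step preserves the agreement, if the new head position on the input tape is at a cell
with the same initial contents in both runs. -/
theorem Agree.next {w w' : List Letter} {t t' : ℕ}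
    (h : Agree A W Sh s Z (A.conf w t) (A.conf w' t'))
    (hZ : Z ((A.conf w t).head W))
    (hs : ∀ i, i ≠ W → Sh i → (A.conf w t).head i < s)
    (hM : ∀ i, i ≠ W → ¬ Sh i → ReadOnly A i ∨ OneWay A i)
    (hI : A.inp ≠ W → ¬ Sh A.inp →
      w[(A.conf w (t + 1)).head A.inp]? = w'[(A.conf w (t + 1)).head A.inp]?) :
    Agree A W Sh s Z (A.conf w (t + 1)) (A.conf w' (t' + 1)) := by
  have ha := h.act_eq hZ hs
  have hinit : ∀ i, i ≠ W → ¬ Sh i →
      (A.init w).tape i ((A.conf w (t + 1)).head i) =
        (A.init w').tape i ((A.conf w (t + 1)).head i) := by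
    intro i hi hsh
    by_cases hii : i = A.inp
    · subst hii
      exact init_tape_inp (hI hi hsh) _
    · exact init_tape_of_ne w w' hii _
  have hhead : (A.conf w (t + 1)).head = (A.conf w' (t' + 1)).head := by
    rw [conf_succ, conf_succ]
    cases h1 : A.act (A.conf w t) with
    | none =>
      rw [next_of_halted h1, next_of_halted (c := _) (show A.Halted _ from ha.symm.trans h1)]
      exact h.head
    | some x =>
      rw [next_of_act (q := x.1) (a := x.2) h1, next_of_act (q := x.1) (a := x.2) (ha.symm.trans h1)]
      simp only
      rw [h.head]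
  refine ⟨?_, hhead, fun p hp => ?_, fun i hi hsh p hp => ?_, fun i hi hsh => ?_⟩
  · rw [conf_succ, conf_succ]
    cases h1 : A.act (A.conf w t) with
    | none =>
      rw [next_of_halted h1, next_of_halted (c := _) (show A.Halted _ from ha.symm.trans h1)]
      exact h.state
    | some x =>
      rw [next_of_act (q := x.1) (a := x.2) h1, next_of_act (q := x.1) (a := x.2) (ha.symm.trans h1)]
  · rw [conf_succ, conf_succ]
    exact h.zone_next hZ hs hp
  · rw [conf_succ, conf_succ]
    cases h1 : A.act (A.conf w t) with
    | none =>
      rw [next_of_halted h1, next_of_halted (c := _) (show A.Halted _ from ha.symm.trans h1)]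
      exact h.short i hi hsh p hp
    | some x =>
      rw [next_of_act (q := x.1) (a := x.2) h1, next_of_act (q := x.1) (a := x.2) (ha.symm.trans h1)]
      simp only
      rw [← h.head]
      by_cases hpp : p = (A.conf w t).head i
      · subst hpp; simp
      · rw [Function.update_of_ne hpp, Function.update_of_ne hpp]
        exact h.short i hi hsh p hp
  · rcases hM i hi hsh with hro | how
    · rw [hro.conf, hro.conf, hinit i hi hsh, hhead]
    · -- a one-way tape
      cases h1 : A.act (A.conf w t) with
      | none =>
        rw [conf_succ, conf_succ, next_of_halted h1, next_of_halted (c := _) (show A.Halted _ from ha.symm.trans h1)]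
        exact h.sym i hi hsh
      | some x =>
        have h1' : A.act (A.conf w' t') = some (x.1, x.2) := by rw [← ha, h1]
        have hmv := how _ _ _ _ h1
        cases h2 : (x.2 i).2 with
        | left => exact absurd h2 hmv
        | stay =>
          rw [conf_succ, conf_succ, next_of_act (q := x.1) (a := x.2) h1, next_of_act h1']
          simp only [h2, Move.app, Function.update_self]
        | right =>
          have e1 : (A.conf w (t + 1)).head i = (A.conf w t).head i + 1 := by
            rw [conf_succ, next_of_act (q := x.1) (a := x.2) h1]
            simp [h2, Move.app]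
          have e2 : (A.conf w' (t' + 1)).head i = (A.conf w' t').head i + 1 := by
            rw [conf_succ, next_of_act h1']
            simp [h2, Move.app]
          have e3 : (A.conf w (t + 1)).tape i ((A.conf w (t + 1)).head i) =
              (A.init w).tape i ((A.conf w (t + 1)).head i) := by
            rw [e1, conf_succ, tape_next_of_ne _ _ (by omega), how.fresh w t (by omega)]
          have e4 : (A.conf w' (t' + 1)).tape i ((A.conf w' (t' + 1)).head i) =
              (A.init w').tape i ((A.conf w' (t' + 1)).head i) := by
            rw [e2, conf_succ, tape_next_of_ne _ _ (by omega), how.fresh w' t' (by omega)]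
          rw [e3, e4, hinit i hi hsh, hhead]

end agree

end Vale.Agent.P338.R2.H313
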