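import Vale.Agent.P338.R2.H898.Model

/-!
P338: head reversals of a multitape Turing machine.
-/

namespace Vale.Agent.P338.R2.H313

open Vale.Agent.P338.R2.H898

/-- The head with the positions `f 0, f 1, …` turns in the step `t`: it moves in the direction
opposite to its previous move. -/
def Turn (f : ℕ → ℕ) (t : ℕ) : Prop :=
  ∃ s < t, (∀ u, s < u → u < t → f (u + 1) = f u) ∧
    ((f s < f (s + 1) ∧ f (t + 1) < f t) ∨ (f (s + 1) < f s ∧ f t < f (t + 1)))

/-- On all pairs of `n`-bit numbers the head on the tape `i` stays in the first `s` cells. -/
def Confined (A : MTM) (s n : ℕ) (i : A.Tape) : Prop :=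
  ∀ x y : List Bool, x.length = n → y.length = n → ∀ t, (A.conf (mulWord x y) t).head i < s

/-- The number of head reversals on the input word `w`, on the tapes in the set `L`: the number of
the pairs of a tape in `L` and a step of the run in which the head on this tape turns. -/
noncomputable def reversals (A : MTM) (L : Set A.Tape) (w : List Letter) : ℕ :=
  Set.ncard {p : A.Tape × ℕ | p.1 ∈ L ∧ p.2 < A.time w ∧ Turn (fun t => (A.conf w t).head p.1) p.2}

/-- The maximal number of head reversals on pairs of `n`-bit numbers, on the tapes that are not
confined to `s` cells. -/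
noncomputable def revNum (A : MTM) (s n : ℕ) : ℕ :=
  sSup {r | ∃ x y : List Bool, x.length = n ∧ y.length = n ∧
    r = reversals A {i | ¬ Confined A s n i} (mulWord x y)}

end Vale.Agent.P338.R2.H313
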